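import Mathlib.Combinatorics.Matroid.Sum
import Mathlib.Combinatorics.Matroid.Minor.Contract
import Mathlib.Combinatorics.Matroid.Rank.Cardinal
import Mathlib.Tactic

set_option autoImplicit false

/-! R53 (S0074), block A: assembly of the two matroids from one cell matroid `U`. -/

namespace Crest.Agent.R053.Assembly

open Set Matroid

/-- a matroid on the whole type is self-dual iff its bases are closed under complement -/
theorem dual_eq_of_base {α : Type*} {M : Matroid α} (hE : M.E = univ)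
    (h : ∀ B, M.IsBase B → M.IsBase Bᶜ) : M✶ = M := by
  refine Matroid.ext_isBase rfl fun B hB => ?_
  rw [Matroid.dual_isBase_iff (by simpa [hE] using hB)]
  rw [hE, ← compl_eq_univ_sdiff]
  refine ⟨fun hb => by simpa using h _ hb, fun hb => h _ hb⟩

theorem base_compl {α : Type*} {M : Matroid α} (hE : M.E = univ) (hM : M✶ = M) {B : Set α}
    (hB : M.IsBase B) : M.IsBase Bᶜ := by
  have := hB.compl_isBase_dual
  rwa [hM, hE, ← compl_eq_univ_sdiff] at this

/-- In a pair of self-dual matroids a packing/covering partition gives a covering. -/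
theorem covering_of_pc {α : Type*} {M : Matroid α} (hE : M.E = univ) (hM : M✶ = M)
    {P C S I : Set α} (hPC : P ∪ C = univ) (hdis : Disjoint P C) (hSP : S ⊆ P)
    (hS : (M.restrict P).closure S = P) (hIC : I ⊆ C) (hI : (M.contract Cᶜ).Indep I) :
    M.Indep ((P \ S) ∪ I) := by
  have hPc : P = Cᶜ := by
    apply Set.Subset.antisymm
    · exact hdis.subset_compl_right
    · intro x hx
      have : x ∈ P ∪ C := by rw [hPC]; trivial
      exact this.resolve_right hx
  have hI' : M.Indep I := hI.of_contract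
  obtain ⟨J, hJ, hIJ⟩ := hI'.subset_isBasis_of_subset hIC (by rw [hE]; exact subset_univ _)
  have hspan : (M ↾ P).Spanning S := by
    rw [Matroid.spanning_iff_closure_eq (by simpa using hSP)]
    simpa using hS
  have hco : (M ↾ P)✶.Indep (P \ S) := by
    have := hspan.compl_coindep
    rw [Matroid.coindep_def] at this
    simpa using this
  have hres : M ↾ P = M ＼ C := by
    rw [Matroid.delete_eq_restrict, hE, hPc, compl_eq_univ_sdiff]
  rw [hres, Matroid.dual_delete, hM] at hco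
  have := (hJ.contract_indep_iff).1 hco
  exact this.1.subset (union_subset_union_right _ hIJ)

theorem no_pc {α : Type*} {M₀ M₁ : Matroid α} (h0 : M₀.E = univ) (h1 : M₁.E = univ)
    (d0 : M₀✶ = M₀) (d1 : M₁✶ = M₁)
    (hcov : ∀ I₀ I₁ : Set α, M₀.Indep I₀ → M₁.Indep I₁ → I₀ ∪ I₁ ≠ univ) :
    ¬ ∃ P C S₀ S₁ I₀ I₁ : Set α, P ∪ C = Set.univ ∧ Disjoint P C ∧
          S₀ ⊆ P ∧ S₁ ⊆ P ∧ Disjoint S₀ S₁ ∧
          (M₀.restrict P).closure S₀ = P ∧ (M₁.restrict P).closure S₁ = P ∧
          I₀ ⊆ C ∧ I₁ ⊆ C ∧ (M₀.contract Cᶜ).Indep I₀ ∧ (M₁.contract Cᶜ).Indep I₁ ∧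
          I₀ ∪ I₁ = C := by
  rintro ⟨P, C, S₀, S₁, I₀, I₁, hPC, hdis, hS0, hS1, hSS, hc0, hc1, hI0, hI1, hi0, hi1, hII⟩
  refine hcov _ _ (covering_of_pc h0 d0 hPC hdis hS0 hc0 hI0 hi0)
    (covering_of_pc h1 d1 hPC hdis hS1 hc1 hI1 hi1) ?_
  rw [← hPC, ← hII]
  ext x
  simp only [mem_union, mem_sdiff]
  constructor
  · rintro ((⟨h, -⟩ | h) | (⟨h, -⟩ | h)) <;> tauto
  · rintro (h | h)
    · by_cases hx : x ∈ S₀
      · have hx1 : x ∉ S₁ := fun hx1 => (Set.disjoint_left.1 hSS hx hx1)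
        tauto
      · tauto
    · tauto

/-- position of the element `x` of the edge `j` in the double ray of cells: for `j ≥ 0` the edge `j`
has first cell `j` and second cell `j+1`; for `j < 0` first cell `j+1` and second cell `j`. -/
def pos {C : Type} (j : ℤ) : C ⊕ C → ℤ × C
  | Sum.inl c => (if 0 ≤ j then j else j + 1, c)
  | Sum.inr c => (if 0 ≤ j then j + 1 else j, c)

/-- the inverse: the element `(m, c)` in the edge of parity `i` containing the cell `m`. -/
def edgeOf (i : ℤ) (m : ℤ) : ℤ := (m - i) / 2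

theorem edge_cases (i m : ℤ) : m = 2 * edgeOf i m + i ∨ m = 2 * edgeOf i m + i + 1 := by
  unfold edgeOf; omega

theorem edgeOf_left (i k : ℤ) : edgeOf i (2 * k + i) = k := by unfold edgeOf; omega
theorem edgeOf_right (i k : ℤ) : edgeOf i (2 * k + i + 1) = k := by unfold edgeOf; omega

/-- the bijection (edges of parity `i`) × (two cells) ≃ (cells) -/
def edgeEquiv (C : Type) (i : ℤ) : ℤ × (C ⊕ C) ≃ ℤ × C where
  toFun p := pos (2 * p.1 + i) p.2
  invFun q := (edgeOf i q.1,
    if 0 ≤ 2 * edgeOf i q.1 + i then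
      (if q.1 = 2 * edgeOf i q.1 + i then Sum.inl q.2 else Sum.inr q.2)
    else (if q.1 = 2 * edgeOf i q.1 + i then Sum.inr q.2 else Sum.inl q.2))
  left_inv := by
    rintro ⟨k, c | c⟩
    · by_cases h : 0 ≤ 2 * k + i
      · simp [pos, h, edgeOf_left]
      · simp [pos, h, edgeOf_right]
    · by_cases h : 0 ≤ 2 * k + i
      · simp [pos, h, edgeOf_right]
      · simp [pos, h, edgeOf_left]
  right_inv := by
    rintro ⟨m, c⟩
    dsimp only
    rcases edge_cases i m with h | h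
    · by_cases h0 : 0 ≤ 2 * edgeOf i m + i
      · rw [if_pos h0, if_pos h]; simp only [pos, if_pos h0]; rw [← h]
      · rw [if_neg h0, if_pos h]; simp only [pos, if_neg h0]; rw [← h]
    · have h' : ¬ m = 2 * edgeOf i m + i := by omega
      by_cases h0 : 0 ≤ 2 * edgeOf i m + i
      · rw [if_pos h0, if_neg h']; simp only [pos, if_pos h0]; rw [← h]
      · rw [if_neg h0, if_neg h']; simp only [pos, if_neg h0]; rw [← h]

/-- the matroid on all cells: direct sum of copies of `U` over the edges of parity `i` -/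
noncomputable def big {C : Type} (U : Matroid (C ⊕ C)) (i : ℤ) : Matroid (ℤ × C) :=
  (Matroid.sum' (fun _ : ℤ => U)).mapEquiv (edgeEquiv C i)

theorem big_ground {C : Type} {U : Matroid (C ⊕ C)} (hE : U.E = univ) (i : ℤ) :
    (big U i).E = univ := by
  rw [big, mapEquiv_ground_eq, sum'_ground_eq]
  have : (⋃ _k : ℤ, Prod.mk _k '' U.E) = univ := by
    ext ⟨k, x⟩; simp [hE]
  rw [this, image_univ, (edgeEquiv C i).surjective.range_eq]

theorem big_indep {C : Type} {U : Matroid (C ⊕ C)} (i : ℤ) (I : Set (ℤ × C)) :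
    (big U i).Indep I ↔ ∀ k : ℤ, U.Indep (pos (2 * k + i) ⁻¹' I) := by
  rw [big, mapEquiv_indep_iff, sum'_indep_iff]
  refine forall_congr' fun k => ?_
  have : Prod.mk k ⁻¹' ((edgeEquiv C i).symm '' I) = pos (2 * k + i) ⁻¹' I := by
    rw [Equiv.image_symm_eq_preimage]; rfl
  rw [this]

theorem big_isBase {C : Type} {U : Matroid (C ⊕ C)} (i : ℤ) (I : Set (ℤ × C)) :
    (big U i).IsBase I ↔ ∀ k : ℤ, U.IsBase (pos (2 * k + i) ⁻¹' I) := by
  rw [big, mapEquiv_isBase_iff, sum'_isBase_iff]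
  refine forall_congr' fun k => ?_
  have : Prod.mk k ⁻¹' ((edgeEquiv C i).symm '' I) = pos (2 * k + i) ⁻¹' I := by
    rw [Equiv.image_symm_eq_preimage]; rfl
  rw [this]

theorem big_dual {C : Type} {U : Matroid (C ⊕ C)} (hE : U.E = univ) (hU : U✶ = U) (i : ℤ) :
    (big U i)✶ = big U i := by
  refine dual_eq_of_base (big_ground hE i) fun B hB => ?_
  rw [big_isBase] at hB ⊢
  intro k
  rw [preimage_compl]
  exact base_compl hE hU (hB k)

/-- the pattern on cell `m` read with alternating complements -/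
def cellPat {C : Type} (X : Set (ℤ × C)) (m : ℤ) : Set C := {c | (m, c) ∈ X}

theorem pre_nonneg {C : Type} (X : Set (ℤ × C)) {j : ℤ} (hj : 0 ≤ j) :
    pos j ⁻¹' X = Sum.inl '' cellPat X j ∪ Sum.inr '' cellPat X (j + 1) := by
  ext x; rcases x with c | c <;> simp [pos, cellPat, hj]

theorem pre_neg {C : Type} (X : Set (ℤ × C)) {j : ℤ} (hj : j < 0) :
    pos j ⁻¹' X = Sum.inl '' cellPat X (j + 1) ∪ Sum.inr '' cellPat X j := by
  ext x; rcases x with c | c <;> simp [pos, cellPat, not_le.2 hj]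

/-- no covering of the double ray -/
theorem no_covering {C : Type} (U : Matroid (C ⊕ C)) (bg : Set C → Prop)
    (hbig : ∀ x, bg x ∨ bg xᶜ)
    (hchain : ¬ ∃ y : ℕ → Set C, bg (y 0) ∧
      ∀ j, U.Indep (Sum.inl '' y j ∪ Sum.inr '' (y (j+1))ᶜ))
    (I₀ I₁ : Set (ℤ × C)) (h0 : (big U 0).Indep I₀) (h1 : (big U 1).Indep I₁) :
    I₀ ∪ I₁ ≠ univ := by
  intro hcov
  -- X = I₀ is independent in the even matroid, its complement is independent in the odd matroid
  have hX : ∀ k : ℤ, U.Indep (pos (2 * k) ⁻¹' I₀) := by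
    intro k; simpa using (big_indep 0 I₀).1 h0 k
  have hXc : ∀ k : ℤ, U.Indep (pos (2 * k + 1) ⁻¹' I₀ᶜ) := by
    intro k
    refine ((big_indep 1 I₁).1 h1 k).subset (preimage_mono ?_)
    intro x hx
    have : x ∈ I₀ ∪ I₁ := by rw [hcov]; trivial
    exact this.resolve_left hx
  have hpc : ∀ m, cellPat I₀ᶜ m = (cellPat I₀ m)ᶜ := fun m => rfl
  apply hchain
  rcases hbig (cellPat I₀ 0) with hb | hb
  · refine ⟨fun j => if Even j then cellPat I₀ j else (cellPat I₀ j)ᶜ, by simpa using hb, ?_⟩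
    intro j
    rcases Nat.even_or_odd j with hj | hj
    · have hj1 : ¬ Even (j + 1) := by rw [Nat.not_even_iff_odd]; exact hj.add_one
      simp only [if_pos hj, if_neg hj1, compl_compl]
      obtain ⟨k, hk⟩ := hj
      have := hX k
      rw [pre_nonneg _ (by omega)] at this
      have e : (2 * (k : ℤ)) = ((j : ℕ) : ℤ) := by rw [hk]; push_cast; ring
      rw [e] at this
      simpa using this
    · have hj1 : Even (j + 1) := hj.add_one
      have hj0 : ¬ Even j := by rwa [Nat.not_even_iff_odd]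
      simp only [if_neg hj0, if_pos hj1]
      obtain ⟨k, hk⟩ := hj
      have := hXc k
      rw [pre_nonneg _ (by omega)] at this
      have e : (2 * (k : ℤ) + 1) = ((j : ℕ) : ℤ) := by rw [hk]; push_cast; ring
      rw [e, hpc, hpc] at this
      simpa using this
  · refine ⟨fun j => if Even j then (cellPat I₀ (-(j : ℤ)))ᶜ else cellPat I₀ (-(j : ℤ)),
      by simpa using hb, ?_⟩
    intro j
    rcases Nat.even_or_odd j with hj | hj
    · have hj1 : ¬ Even (j + 1) := by rw [Nat.not_even_iff_odd]; exact hj.add_one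
      simp only [if_pos hj, if_neg hj1]
      obtain ⟨k, hk⟩ := hj
      have := hXc (-(k : ℤ) - 1)
      rw [pre_neg _ (by omega)] at this
      have e : (2 * (-(k : ℤ) - 1) + 1) + 1 = -(j : ℤ) := by rw [hk]; push_cast; ring
      have e' : (2 * (-(k : ℤ) - 1) + 1) = -((j + 1 : ℕ) : ℤ) := by rw [hk]; push_cast; ring
      rw [e, e', hpc, hpc] at this
      exact this
    · have hj1 : Even (j + 1) := hj.add_one
      have hj0 : ¬ Even j := by rwa [Nat.not_even_iff_odd]
      simp only [if_neg hj0, if_pos hj1, compl_compl]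
      obtain ⟨k, hk⟩ := hj
      have := hX (-(k : ℤ) - 1)
      rw [pre_neg _ (by omega)] at this
      have e : (2 * (-(k : ℤ) - 1)) + 1 = -(j : ℤ) := by rw [hk]; push_cast; ring
      have e' : (2 * (-(k : ℤ) - 1)) = -((j + 1 : ℕ) : ℤ) := by rw [hk]; push_cast; ring
      rw [e, e'] at this
      exact this

/-- transport of a self-dual matroid along a bijection -/
theorem dual_mapEquiv {α β : Type} {M : Matroid α} (hM : M✶ = M) (f : α ≃ β) :
    (M.mapEquiv f)✶ = M.mapEquiv f := by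
  have h1 : (M.mapEquiv f)✶ = (M✶).mapEquiv f := by
    rw [mapEquiv_eq_map, Matroid.map_dual]; rfl
  rw [h1, hM]

/-- **Block A.** The conclusion of S0074 from one self-dual matroid `U` on two copies of a countable
cell, with no infinite chain starting at a big set. -/
theorem assembly {C : Type} [Countable C] [Infinite C] (U : Matroid (C ⊕ C))
    (hE : U.E = Set.univ) (hU : U✶ = U) (bg : Set C → Prop) (hbig : ∀ x, bg x ∨ bg xᶜ)
    (hchain : ¬ ∃ y : ℕ → Set C, bg (y 0) ∧
      ∀ j, U.Indep (Sum.inl '' y j ∪ Sum.inr '' (y (j+1))ᶜ)) :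
    ∃ M₀ M₁ : Matroid ℕ, M₀.E = Set.univ ∧ M₁.E = Set.univ ∧ M₀.dual = M₀ ∧ M₁.dual = M₁ ∧
      (∀ I₀ I₁ : Set ℕ, M₀.Indep I₀ → M₁.Indep I₁ → I₀ ∪ I₁ ≠ Set.univ) ∧
      ¬ ∃ P C S₀ S₁ I₀ I₁ : Set ℕ, P ∪ C = Set.univ ∧ Disjoint P C ∧
          S₀ ⊆ P ∧ S₁ ⊆ P ∧ Disjoint S₀ S₁ ∧
          (M₀.restrict P).closure S₀ = P ∧ (M₁.restrict P).closure S₁ = P ∧
          I₀ ⊆ C ∧ I₁ ⊆ C ∧ (M₀.contract Cᶜ).Indep I₀ ∧ (M₁.contract Cᶜ).Indep I₁ ∧
          I₀ ∪ I₁ = C := by
  obtain ⟨f⟩ : Nonempty ((ℤ × C) ≃ ℕ) := nonempty_equiv_of_countable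
  have g0 : ((big U 0).mapEquiv f).E = univ := by
    rw [mapEquiv_ground_eq, big_ground hE, image_univ, f.surjective.range_eq]
  have g1 : ((big U 1).mapEquiv f).E = univ := by
    rw [mapEquiv_ground_eq, big_ground hE, image_univ, f.surjective.range_eq]
  have d0 := dual_mapEquiv (big_dual hE hU 0) f
  have d1 := dual_mapEquiv (big_dual hE hU 1) f
  have hcov : ∀ I₀ I₁ : Set ℕ, ((big U 0).mapEquiv f).Indep I₀ →
      ((big U 1).mapEquiv f).Indep I₁ → I₀ ∪ I₁ ≠ Set.univ := by
    intro I₀ I₁ h0 h1 h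
    rw [mapEquiv_indep_iff] at h0 h1
    refine no_covering U bg hbig hchain _ _ h0 h1 ?_
    rw [← image_union, h, image_univ, f.symm.surjective.range_eq]
  exact ⟨_, _, g0, g1, d0, d1, hcov, no_pc g0 g1 d0 d1 hcov⟩

end Crest.Agent.R053.Assembly
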