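import Mathlib

/-!
# R53 (S0074): shared definitions (blueprint by helper901, proof post #2541)
-/

set_option autoImplicit false

namespace Crest.Agent.R053

open Set

/-- An ideal of "small" sets containing all singletons. -/
structure SIdeal (α : Type) where
  small : Set α → Prop
  mono : ∀ {s t : Set α}, s ⊆ t → small t → small s
  union : ∀ {s t : Set α}, small s → small t → small (s ∪ t)
  singleton : ∀ x : α, small {x}
  empty : small ∅

/-- almost inclusion modulo the ideal -/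
def SIdeal.le {α : Type} (S : SIdeal α) (X Y : Set α) : Prop := S.small (X \ Y)

/-- The ideal on `α ⊕ β`: both coordinates small. -/
def SIdeal.sum {α : Type} (S : SIdeal α) : SIdeal (α ⊕ α) where
  small X := S.small (Sum.inl ⁻¹' X) ∧ S.small (Sum.inr ⁻¹' X)
  mono h ht := ⟨S.mono (preimage_mono h) ht.1, S.mono (preimage_mono h) ht.2⟩
  union hs ht := ⟨by rw [preimage_union]; exact S.union hs.1 ht.1,
    by rw [preimage_union]; exact S.union hs.2 ht.2⟩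
  singleton x := by
    rcases x with x | x
    · refine ⟨S.mono (t := {x}) ?_ (S.singleton x), S.mono (t := ∅) ?_ S.empty⟩
      · intro y hy; simpa using hy
      · intro y hy; simp at hy
    · refine ⟨S.mono (t := ∅) ?_ S.empty, S.mono (t := {x}) ?_ (S.singleton x)⟩
      · intro y hy; simp at hy
      · intro y hy; simpa using hy
  empty := ⟨by simpa using S.empty, by simpa using S.empty⟩

/-- "local bases" in the class of `N` modulo the ideal. -/
structure LocalBases {α : Type} (S : SIdeal α) (N : Set α) (LB : Set (Set α)) : Prop where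
  near : ∀ B ∈ LB, S.le B N ∧ S.le N B
  swap : ∀ B ∈ LB, ∀ a ∈ B, ∀ b, b ∉ B → insert b (B \ {a}) ∈ LB
  anti : ∀ B ∈ LB, ∀ B' ∈ LB, B ⊆ B' → B = B'
  mid : ∀ I X : Set α, I ⊆ X → S.le I N → S.le N X → (S.le N I → ∃ B ∈ LB, I ⊆ B) →
    (∃ B ∈ LB, I ⊆ B ∧ B ⊆ X) ∨ (S.le X N ∧ ∃ B ∈ LB, X ⊆ B)

/-- base family of an identically self-dual "uniform" matroid on the whole type -/
structure UBase {α : Type} (ℬ : Set (Set α)) : Prop where
  nonempty : ℬ.Nonempty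
  swap : ∀ B ∈ ℬ, ∀ a ∈ B, ∀ b, b ∉ B → insert b (B \ {a}) ∈ ℬ
  anti : ∀ B ∈ ℬ, ∀ B' ∈ ℬ, B ⊆ B' → B = B'
  mid : ∀ I X : Set α, I ⊆ X → (∃ B ∈ ℬ, I ⊆ B) →
    (∃ B ∈ ℬ, I ⊆ B ∧ B ⊆ X) ∨ (∃ B ∈ ℬ, X ⊆ B)
  compl : ∀ B ∈ ℬ, Bᶜ ∈ ℬ

/-- a "type +" near-base class with its two ordinals `q < r` -/
structure Nd (C : Type) where
  a : Set C
  b : Set C
  q : Ordinal.{0}
  r : Ordinal.{0}

/-- the invariants of the transfinite recursion; `a ∈ D` is "big". -/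
structure Good {C : Type} (S : SIdeal C) (D : Ultrafilter C) (F : Set (Nd C)) : Prop where
  ha : ∀ N ∈ F, N.a ∈ D
  hb : ∀ N ∈ F, N.b ∉ D
  hqr : ∀ N ∈ F, N.q < N.r
  anti : ∀ N ∈ F, ∀ N' ∈ F, S.le N.a N'.a → S.le N.b N'.b → N = N'
  rank : ∀ N ∈ F, ∀ N' ∈ F, S.le N.bᶜ N'.a → N'.r ≤ N.q

/-- `I=(i1,i2) ⊆ X=(x1,x2)` is taken care of by a type + member of `F`. -/
def Ok {C : Type} (S : SIdeal C) (F : Set (Nd C)) (i₁ i₂ x₁ x₂ : Set C) : Prop :=
  ∃ N ∈ F, (S.le x₁ N.a ∧ S.le x₂ N.b) ∨ (S.le N.a i₁ ∧ S.le N.b i₂) ∨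
    ((S.le i₁ N.a ∧ S.le i₂ N.b) ∧ (S.le N.a x₁ ∧ S.le N.b x₂))

/-- `H` splits the set `P` into two non-small pieces. -/
def Splits {C : Type} (S : SIdeal C) (H P : Set C) : Prop :=
  ¬ S.small (P ∩ H) ∧ ¬ S.small (P \ H)

/-- the final family -/
structure Final {C : Type} (S : SIdeal C) (D : Ultrafilter C) (F : Set (Nd C)) : Prop
    extends Good S D F where
  all : ∀ i₁ i₂ x₁ x₂ : Set C, i₁ ⊆ x₁ → i₂ ⊆ x₂ →
    Ok S F i₁ i₂ x₁ x₂ ∨ Ok S F x₁ᶜ x₂ᶜ i₁ᶜ i₂ᶜ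

/-- The countable ground set `C`: the `n`-th block consists of all functions `2^n → 2`. -/
abbrev CC : Type := Σ n : ℕ, ((Fin n → Bool) → Bool)

end Crest.Agent.R053
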