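import Crest.Agent.R053.Basic

/-!
# R53 [G] extension lemma of the transfinite recursion
-/

set_option autoImplicit false

namespace Crest.Agent.R053.Ext

open Set Crest.Agent.R053

variable {C : Type}

theorem le_of_subset (S : SIdeal C) {X Y : Set C} (h : X ⊆ Y) : S.le X Y := by
  unfold SIdeal.le
  rw [Set.sdiff_eq_empty.2 h]; exact S.empty

theorem le_trans (S : SIdeal C) {X Y Z : Set C} (h : S.le X Y) (h' : S.le Y Z) : S.le X Z := by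
  refine S.mono ?_ (S.union h h')
  intro x hx
  by_cases hy : x ∈ Y
  · exact Or.inr ⟨hy, hx.2⟩
  · exact Or.inl ⟨hx.1, hy⟩

theorem le_compl (S : SIdeal C) {X Y : Set C} (h : S.le X Y) : S.le Yᶜ Xᶜ := by
  refine S.mono ?_ h
  intro x hx
  exact ⟨by simpa using hx.2, hx.1⟩

theorem mem_of_le (S : SIdeal C) (D : Ultrafilter C) (hD : ∀ A, S.small A → A ∉ D)
    {X Y : Set C} (h : S.le X Y) (hX : X ∈ D) : Y ∈ D := by
  by_contra hY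
  have h1 : Yᶜ ∈ D := Ultrafilter.compl_mem_iff_notMem.2 hY
  have h2 : X ∩ Yᶜ ∈ D := Filter.inter_mem hX h1
  exact hD _ h (by simpa [Set.sdiff_eq] using h2)

/-- "H splits P if P is not small" -/
def Sp (S : SIdeal C) (H P : Set C) : Prop := ¬ S.small P → Splits S H P

theorem alpha (S : SIdeal C) {i d H Y : Set C} (hs : Sp S H (d \ Y))
    (h : S.le (i ∪ (H ∩ d)) Y) : S.le (i ∪ d) Y := by
  have h1 : S.small ((d \ Y) ∩ H) := by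
    refine S.mono ?_ h
    intro x hx
    exact ⟨Or.inr ⟨hx.2, hx.1.1⟩, hx.1.2⟩
  have h2 : S.small (d \ Y) := by
    by_contra hc
    exact (hs hc).1 h1
  refine S.mono ?_ (S.union h h2)
  intro x hx
  rcases hx.1 with h3 | h3
  · exact Or.inl ⟨Or.inl h3, hx.2⟩
  · exact Or.inr ⟨h3, hx.2⟩

theorem beta (S : SIdeal C) {i d H Z : Set C} (hdi : Disjoint i d) (hs : Sp S H (Z ∩ d))
    (h : S.le Z (i ∪ (H ∩ d))) : S.le Z i := by
  have h1 : S.small ((Z ∩ d) \ H) := by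
    refine S.mono ?_ h
    intro x hx
    refine ⟨hx.1.1, ?_⟩
    rintro (h3 | h3)
    · exact Set.disjoint_left.1 hdi h3 hx.1.2
    · exact hx.2 h3.1
  have h2 : S.small (Z ∩ d) := by
    by_contra hc
    exact (hs hc).2 h1
  refine S.mono ?_ (S.union h h2)
  intro x hx
  by_cases hd : x ∈ d
  · exact Or.inr ⟨hx.1, hd⟩
  · refine Or.inl ⟨hx.1, ?_⟩
    rintro (h3 | h3)
    · exact hx.2 h3
    · exact hd h3.2

theorem gamma (S : SIdeal C) {i d H Y : Set C} (hdi : Disjoint i d) (hs : Sp S H (d \ Y))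
    (h : S.le (i ∪ (H ∩ d))ᶜ Y) : S.le iᶜ Y := by
  have h1 : S.small ((d \ Y) \ H) := by
    refine S.mono ?_ h
    intro x hx
    refine ⟨?_, hx.1.2⟩
    rintro (h3 | h3)
    · exact Set.disjoint_left.1 hdi h3 hx.1.1
    · exact hx.2 h3.1
  have h2 : S.small (d \ Y) := by
    by_contra hc
    exact (hs hc).2 h1
  refine S.mono ?_ (S.union h h2)
  intro x hx
  by_cases hd : x ∈ d
  · exact Or.inr ⟨hd, hx.2⟩
  · refine Or.inl ⟨?_, hx.2⟩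
    rintro (h3 | h3)
    · exact hx.1 h3
    · exact hd h3.2

/-- The splitting hypothesis available at a stage of the recursion. -/
def SplitHyp (S : SIdeal C) (F : Set (Nd C)) : Prop :=
  ∀ (f : Nd C → List (Set C)) (g : List (Set C)),
    ∃ H : Set C, (∀ N ∈ F, ∀ P ∈ f N, Sp S H P) ∧ ∀ P ∈ g, Sp S H P

theorem Sp.compl (S : SIdeal C) {H P : Set C} (h : Sp S H P) : Sp S Hᶜ P := by
  intro hP
  obtain ⟨h1, h2⟩ := h hP
  refine ⟨by simpa [Set.sdiff_eq] using h2, by simpa [Set.sdiff_eq] using h1⟩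

theorem SplitHyp.mem {S : SIdeal C} {F : Set (Nd C)} (h : SplitHyp S F) (D : Ultrafilter C)
    (f : Nd C → List (Set C)) (g : List (Set C)) :
    ∃ H : Set C, H ∈ D ∧ (∀ N ∈ F, ∀ P ∈ f N, Sp S H P) ∧ ∀ P ∈ g, Sp S H P := by
  obtain ⟨H, h1, h2⟩ := h f g
  by_cases hH : H ∈ D
  · exact ⟨H, hH, h1, h2⟩
  · exact ⟨Hᶜ, Ultrafilter.compl_mem_iff_notMem.2 hH, fun N hN P hP => (h1 N hN P hP).compl,
      fun P hP => (h2 P hP).compl⟩

theorem SplitHyp.notMem {S : SIdeal C} {F : Set (Nd C)} (h : SplitHyp S F) (D : Ultrafilter C)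
    (f : Nd C → List (Set C)) (g : List (Set C)) :
    ∃ H : Set C, H ∉ D ∧ (∀ N ∈ F, ∀ P ∈ f N, Sp S H P) ∧ ∀ P ∈ g, Sp S H P := by
  obtain ⟨H, h0, h1, h2⟩ := h.mem D f g
  exact ⟨Hᶜ, fun hc => (Ultrafilter.compl_mem_iff_notMem.1 hc) h0,
    fun N hN P hP => (h1 N hN P hP).compl, fun P hP => (h2 P hP).compl⟩

/-- The main step: insert a new type + class between `I` and `X`. -/
theorem between (S : SIdeal C) (D : Ultrafilter C)
    {F : Set (Nd C)} (hF : Good S D F) (hsp : SplitHyp S F)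
    {i₁ i₂ x₁ x₂ : Set C} (h₁ : i₁ ⊆ x₁) (h₂ : i₂ ⊆ x₂) (hi₂ : i₂ ∉ D) (hx₁ : x₁ ∈ D)
    (hno : ¬ Ok S F i₁ i₂ x₁ x₂)
    {q r : Ordinal.{0}} (hqr : q < r)
    (hq : ∀ N ∈ F, S.le i₂ᶜ N.a → N.r ≤ q) (hr : ∀ N ∈ F, S.le N.bᶜ i₁ → r ≤ N.q)
    (hself : ¬ S.le i₂ᶜ i₁) :
    ∃ N : Nd C, Good S D (insert N F) ∧
      (i₁ ⊆ N.a ∧ i₂ ⊆ N.b ∧ N.a ⊆ x₁ ∧ N.b ⊆ x₂) := by
  obtain ⟨H₂, hH₂D, hH₂, hH₂'⟩ := hsp.notMem D
    (fun N => [(x₂ \ i₂) \ N.b, N.b ∩ (x₂ \ i₂), (x₂ \ i₂) \ N.a]) [(x₂ \ i₂) \ i₁]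
  set b : Set C := i₂ ∪ (H₂ ∩ (x₂ \ i₂)) with hb
  obtain ⟨H₁, hH₁D, hH₁, hH₁'⟩ := hsp.mem D
    (fun N => [(x₁ \ i₁) \ N.a, N.a ∩ (x₁ \ i₁), N.bᶜ ∩ (x₁ \ i₁)]) [bᶜ ∩ (x₁ \ i₁)]
  set a : Set C := i₁ ∪ (H₁ ∩ (x₁ \ i₁)) with ha
  have hdis₁ : Disjoint i₁ (x₁ \ i₁) := disjoint_sdiff_right
  have hdis₂ : Disjoint i₂ (x₂ \ i₂) := disjoint_sdiff_right
  have ex₁ : i₁ ∪ (x₁ \ i₁) = x₁ := union_sdiff_cancel h₁
  have ex₂ : i₂ ∪ (x₂ \ i₂) = x₂ := union_sdiff_cancel h₂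
  have haD : a ∈ D := by
    by_cases hi : i₁ ∈ D
    · exact Filter.mem_of_superset hi subset_union_left
    · have h3 : x₁ \ i₁ ∈ D := by
        have : i₁ᶜ ∈ D := Ultrafilter.compl_mem_iff_notMem.2 hi
        rw [Set.sdiff_eq]
        exact Filter.inter_mem hx₁ this
      exact Filter.mem_of_superset (Filter.inter_mem hH₁D h3) subset_union_right
  have hbD : b ∉ D := by
    intro hc
    rcases (Ultrafilter.union_mem_iff.1 hc) with h3 | h3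
    · exact hi₂ h3
    · exact hH₂D (Filter.mem_of_superset h3 inter_subset_left)
  refine ⟨⟨a, b, q, r⟩, ?_, ?_⟩
  · constructor
    · rintro N (rfl | hN)
      · exact haD
      · exact hF.ha N hN
    · rintro N (rfl | hN)
      · exact hbD
      · exact hF.hb N hN
    · rintro N (rfl | hN)
      · exact hqr
      · exact hF.hqr N hN
    · rintro N (rfl | hN) N' (rfl | hN') ha' hb'
      · rfl
      · exfalso
        apply hno
        refine ⟨N', hN', Or.inl ⟨?_, ?_⟩⟩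
        · have := alpha S (i := i₁) (hH₁ N' hN' _ (by simp)) ha'
          rwa [ex₁] at this
        · have := alpha S (i := i₂) (hH₂ N' hN' _ (by simp)) hb'
          rwa [ex₂] at this
      · exfalso
        apply hno
        refine ⟨N, hN, Or.inr (Or.inl ⟨?_, ?_⟩)⟩
        · exact beta S hdis₁ (hH₁ N hN _ (by simp)) ha'
        · exact beta S hdis₂ (hH₂ N hN _ (by simp)) hb'
      · exact hF.anti N hN N' hN' ha' hb'
    · rintro N (rfl | hN) N' (rfl | hN') hle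
      · exfalso
        apply hself
        have h3 := beta S hdis₁ (hH₁' _ (by simp)) hle
        exact gamma S hdis₂ (hH₂' _ (by simp)) h3
      · exact hq N' hN' (gamma S hdis₂ (hH₂ N' hN' _ (by simp)) hle)
      · exact hr N hN (beta S hdis₁ (hH₁ N hN _ (by simp)) hle)
      · exact hF.rank N hN N' hN' hle
  · refine ⟨subset_union_left, subset_union_left, ?_, ?_⟩
    · exact union_subset h₁ (inter_subset_right.trans sdiff_subset)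
    · exact union_subset h₂ (inter_subset_right.trans sdiff_subset)

/-- insert a class inside `I` (A2 / C) -/
theorem inside (S : SIdeal C) (D : Ultrafilter C) (hD : ∀ A, S.small A → A ∉ D)
    {F : Set (Nd C)} (hF : Good S D F) (hsp : SplitHyp S F)
    (hbdd : ∃ κ : Ordinal.{0}, ∀ N ∈ F, N.r ≤ κ)
    {i₁ i₂ : Set C} (hi₁ : i₁ ∈ D)
    (hno2 : ∀ N ∈ F, ¬ (S.le N.a i₁ ∧ S.le N.b i₂))
    (hno3 : ∀ N ∈ F, ¬ (S.le i₁ N.a ∧ S.le i₂ N.b)) :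
    ∃ N : Nd C, Good S D (insert N F) ∧ (N.a ⊆ i₁ ∧ N.b ⊆ i₂) := by
  obtain ⟨κ, hκ⟩ := hbdd
  have hemp : (∅ : Set C) ∉ D := hD _ S.empty
  have hno : ¬ Ok S F ∅ ∅ i₁ i₂ := by
    rintro ⟨N, hN, h | h | h⟩
    · exact hno3 N hN h
    · have h3 : S.le N.a ∅ := h.1
      exact hemp (mem_of_le S D hD h3 (hF.ha N hN))
    · exact hno2 N hN h.2
  obtain ⟨N, hN, h⟩ := between S D hF hsp (i₁ := ∅) (i₂ := ∅) (x₁ := i₁) (x₂ := i₂)
    (empty_subset _) (empty_subset _) hemp hi₁ hno (q := κ) (r := Order.succ κ)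
    (Order.lt_succ κ) (fun N hN _ => hκ N hN)
    (fun N hN h => absurd (mem_of_le S D hD h
      (Ultrafilter.compl_mem_iff_notMem.2 (hF.hb N hN))) hemp)
    (fun h => hemp (mem_of_le S D hD h (by rw [compl_empty]; exact Filter.univ_mem)))
  exact ⟨N, hN, h.2.2.1, h.2.2.2⟩

theorem ext1 (S : SIdeal C) (D : Ultrafilter C) (hD : ∀ A, S.small A → A ∉ D)
    {F : Set (Nd C)} (hF : Good S D F) (hsp : SplitHyp S F)
    (hbdd : ∃ κ : Ordinal.{0}, ∀ N ∈ F, N.r ≤ κ)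
    {i₁ i₂ x₁ x₂ : Set C} (h₁ : i₁ ⊆ x₁) (h₂ : i₂ ⊆ x₂)
    (hno : ¬ Ok S F i₁ i₂ x₁ x₂)
    (hcase : (i₂ ∉ D ∧ x₁ ∈ D) ∨ (i₁ ∈ D ∧ i₂ ∈ D)) :
    ∃ N : Nd C, Good S D (insert N F) ∧ Ok S {N} i₁ i₂ x₁ x₂ := by
  have hno2 : ∀ N ∈ F, ¬ (S.le N.a i₁ ∧ S.le N.b i₂) := fun N hN h =>
    hno ⟨N, hN, Or.inr (Or.inl h)⟩
  rcases hcase with ⟨hi₂, hx₁⟩ | ⟨hi₁, hi₂⟩
  · have hyD : i₂ᶜ ∈ D := Ultrafilter.compl_mem_iff_notMem.2 hi₂
    by_cases hi₁ : i₁ ∈ D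
    · by_cases hc : (¬ S.le i₂ᶜ i₁) ∧ ∃ q r : Ordinal.{0}, q < r ∧
          (∀ N ∈ F, S.le i₂ᶜ N.a → N.r ≤ q) ∧ (∀ N ∈ F, S.le N.bᶜ i₁ → r ≤ N.q)
      · obtain ⟨hself, q, r, hqr, hq, hr⟩ := hc
        obtain ⟨N, hN, h⟩ := between S D hF hsp h₁ h₂ hi₂ hx₁ hno hqr hq hr hself
        exact ⟨N, hN, N, rfl, Or.inr (Or.inr ⟨⟨le_of_subset S h.1, le_of_subset S h.2.1⟩,
          ⟨le_of_subset S h.2.2.1, le_of_subset S h.2.2.2⟩⟩)⟩
      · have hno3 : ∀ N ∈ F, ¬ (S.le i₁ N.a ∧ S.le i₂ N.b) := by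
          rintro N hN ⟨ha, hb⟩
          apply hc
          have hb' : S.le N.bᶜ i₂ᶜ := le_compl S hb
          refine ⟨?_, N.q, N.r, hF.hqr N hN, ?_, ?_⟩
          · intro hle
            have h3 : S.le N.bᶜ N.a := le_trans S hb' (le_trans S hle ha)
            exact absurd (hF.rank N hN N hN h3) (not_le.2 (hF.hqr N hN))
          · intro N' hN' hle
            exact hF.rank N hN N' hN' (le_trans S hb' hle)
          · intro N' hN' hle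
            exact hF.rank N' hN' N hN (le_trans S hle ha)
        obtain ⟨N, hN, h⟩ := inside S D hD hF hsp hbdd hi₁ hno2 hno3
        exact ⟨N, hN, N, rfl, Or.inr (Or.inl ⟨le_of_subset S h.1, le_of_subset S h.2⟩)⟩
    · obtain ⟨κ, hκ⟩ := hbdd
      obtain ⟨N, hN, h⟩ := between S D hF hsp h₁ h₂ hi₂ hx₁ hno (q := κ) (r := Order.succ κ)
        (Order.lt_succ κ) (fun N hN _ => hκ N hN)
        (fun N hN h => absurd (mem_of_le S D hD h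
          (Ultrafilter.compl_mem_iff_notMem.2 (hF.hb N hN))) hi₁)
        (fun h => hi₁ (mem_of_le S D hD h hyD))
      exact ⟨N, hN, N, rfl, Or.inr (Or.inr ⟨⟨le_of_subset S h.1, le_of_subset S h.2.1⟩,
          ⟨le_of_subset S h.2.2.1, le_of_subset S h.2.2.2⟩⟩)⟩
  · have hno3 : ∀ N ∈ F, ¬ (S.le i₁ N.a ∧ S.le i₂ N.b) := by
      rintro N hN ⟨_, hb⟩
      exact hF.hb N hN (mem_of_le S D hD hb hi₂)
    obtain ⟨N, hN, h⟩ := inside S D hD hF hsp hbdd hi₁ hno2 hno3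
    exact ⟨N, hN, N, rfl, Or.inr (Or.inl ⟨le_of_subset S h.1, le_of_subset S h.2⟩)⟩

/-- The extension lemma. -/
theorem extension (S : SIdeal C) (D : Ultrafilter C) (hD : ∀ A, S.small A → A ∉ D)
    {F : Set (Nd C)} (hF : Good S D F) (hsp : SplitHyp S F)
    (hbdd : ∃ κ : Ordinal.{0}, ∀ N ∈ F, N.r ≤ κ)
    {i₁ i₂ x₁ x₂ : Set C} (h₁ : i₁ ⊆ x₁) (h₂ : i₂ ⊆ x₂)
    (hno : ¬ Ok S F i₁ i₂ x₁ x₂) (hno' : ¬ Ok S F x₁ᶜ x₂ᶜ i₁ᶜ i₂ᶜ) :
    ∃ N : Nd C, Good S D (insert N F) ∧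
      (Ok S {N} i₁ i₂ x₁ x₂ ∨ Ok S {N} x₁ᶜ x₂ᶜ i₁ᶜ i₂ᶜ) := by
  have hmono₁ : i₁ ∈ D → x₁ ∈ D := fun h => Filter.mem_of_superset h h₁
  have hmono₂ : i₂ ∈ D → x₂ ∈ D := fun h => Filter.mem_of_superset h h₂
  by_cases hcase : (i₂ ∉ D ∧ x₁ ∈ D) ∨ (i₁ ∈ D ∧ i₂ ∈ D)
  · obtain ⟨N, hN, h⟩ := ext1 S D hD hF hsp hbdd h₁ h₂ hno hcase
    exact ⟨N, hN, Or.inl h⟩
  · have hcase' : (x₂ᶜ ∉ D ∧ i₁ᶜ ∈ D) ∨ (x₁ᶜ ∈ D ∧ x₂ᶜ ∈ D) := by
      simp only [Ultrafilter.compl_mem_iff_notMem, not_not]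
      by_cases a1 : i₁ ∈ D <;> by_cases a2 : i₂ ∈ D <;> by_cases a3 : x₁ ∈ D <;>
        by_cases a4 : x₂ ∈ D <;> simp_all
    obtain ⟨N, hN, h⟩ := ext1 S D hD hF hsp hbdd (compl_subset_compl.2 h₁)
      (compl_subset_compl.2 h₂) hno' hcase'
    exact ⟨N, hN, Or.inr h⟩

end Crest.Agent.R053.Ext
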