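import Crest.Agent.R053.Basic

/-!
# R53 (S0074): block [M2].  From the final family and the local bases to a `UBase`, and no chain.
-/

set_option autoImplicit false

namespace Crest.Agent.R053.Fam

open Set

variable {C : Type}

/-- the subset of `C ⊕ C` given by the two coordinates of a node -/
def hat (N : Nd C) : Set (C ⊕ C) := Sum.inl '' N.a ∪ Sum.inr '' N.b

lemma inl_hat (N : Nd C) : Sum.inl ⁻¹' hat N = N.a := by
  ext x; simp [hat]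

lemma inr_hat (N : Nd C) : Sum.inr ⁻¹' hat N = N.b := by
  ext x; simp [hat]

/-- the union of all local bases and of their complements -/
def bases (F : Set (Nd C)) (LB : Nd C → Set (Set (C ⊕ C))) : Set (Set (C ⊕ C)) :=
  {B | ∃ N ∈ F, B ∈ LB N ∨ Bᶜ ∈ LB N}

lemma le_trans' {α : Type} (S : SIdeal α) {X Y Z : Set α} (h₁ : S.le X Y) (h₂ : S.le Y Z) :
    S.le X Z := by
  refine S.mono (t := (X \ Y) ∪ (Y \ Z)) ?_ (S.union h₁ h₂)
  intro x hx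
  by_cases h : x ∈ Y
  · exact Or.inr ⟨h, hx.2⟩
  · exact Or.inl ⟨hx.1, h⟩

lemma le_of_subset {α : Type} (S : SIdeal α) {X Y : Set α} (h : X ⊆ Y) : S.le X Y := by
  unfold SIdeal.le
  rw [sdiff_eq_empty.mpr h]; exact S.empty

lemma le_compl {α : Type} (S : SIdeal α) {X Y : Set α} (h : S.le X Y) : S.le Yᶜ Xᶜ := by
  unfold SIdeal.le at *
  refine S.mono ?_ h
  intro x hx
  exact ⟨not_not.mp hx.2, hx.1⟩

lemma le_compl_iff {α : Type} (S : SIdeal α) {X Y : Set α} : S.le Yᶜ Xᶜ ↔ S.le X Y :=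
  ⟨fun h => by simpa using le_compl S h, le_compl S⟩

/-- The dual of a local base family. -/
theorem local_dual {α : Type} {S : SIdeal α} {N : Set α} {LB : Set (Set α)}
    (h : LocalBases S N LB) (hN : ¬ S.small N) :
    LocalBases S Nᶜ {B | Bᶜ ∈ LB} where
  near := by
    intro B hB
    obtain ⟨h1, h2⟩ := h.near Bᶜ hB
    exact ⟨by simpa using le_compl S h2, by simpa using le_compl S h1⟩
  swap := by
    intro B hB a ha b hb
    have hab : a ≠ b := fun e => hb (e ▸ ha)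
    have key := h.swap Bᶜ hB b hb a (fun h' => h' ha)
    have e : (insert b (B \ {a}))ᶜ = insert a (Bᶜ \ {b}) := by
      ext x
      simp only [mem_compl_iff, mem_insert_iff, mem_sdiff, mem_singleton_iff, not_or, not_and,
        not_not]
      constructor
      · rintro ⟨h1, h2⟩
        by_cases hx : x ∈ B
        · exact Or.inl (h2 hx)
        · exact Or.inr ⟨hx, h1⟩
      · rintro (rfl | ⟨h1, h2⟩)
        · exact ⟨hab, fun _ => rfl⟩
        · exact ⟨h2, fun h' => absurd h' h1⟩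
    change (insert b (B \ {a}))ᶜ ∈ LB
    rw [e]; exact key
  anti := by
    intro B hB B' hB' hBB
    have := h.anti B'ᶜ hB' Bᶜ hB (compl_subset_compl.mpr hBB)
    exact (compl_injective this).symm
  mid := by
    intro I X hIX hI hX hyp
    have hI' : S.le Xᶜ N := by simpa using le_compl S hX
    have hX' : S.le N Iᶜ := by simpa using le_compl S hI
    have main : (S.le N Xᶜ → ∃ B ∈ LB, Xᶜ ⊆ B) →
        (∃ B ∈ {B | Bᶜ ∈ LB}, I ⊆ B ∧ B ⊆ X) ∨ (S.le X Nᶜ ∧ ∃ B ∈ {B | Bᶜ ∈ LB}, X ⊆ B) := by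
      intro hyp'
      rcases h.mid Xᶜ Iᶜ (compl_subset_compl.mpr hIX) hI' hX' hyp' with
        ⟨B, hB, h1, h2⟩ | ⟨h1, B, hB, h2⟩
      · refine Or.inl ⟨Bᶜ, by simpa using hB, ?_, ?_⟩
        · exact subset_compl_comm.mp h2
        · exact compl_subset_comm.mp h1
      · obtain ⟨B1, hB1, hIB1⟩ := hyp (by simpa using le_compl S h1)
        have h3 : B1ᶜ ⊆ B := (compl_subset_compl.mpr hIB1).trans h2
        have h4 : B1ᶜ = B := h.anti _ hB1 _ hB h3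
        refine Or.inl ⟨B1, hB1, hIB1, ?_⟩
        have : B1 ⊆ I := by
          rw [← compl_subset_compl, h4]; exact h2
        exact this.trans hIX
    by_cases hXN : S.le X Nᶜ
    · have hXN' : S.le N Xᶜ := by simpa using le_compl S hXN
      rcases h.mid ∅ Xᶜ (empty_subset _) (le_of_subset S (empty_subset _)) hXN'
        (fun h' => absurd (by simpa [SIdeal.le] using h') hN) with
        ⟨B, hB, -, h2⟩ | ⟨-, B, hB, h2⟩
      · exact Or.inr ⟨hXN, Bᶜ, by simpa using hB, subset_compl_comm.mp h2⟩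
      · exact main (fun _ => ⟨B, hB, h2⟩)
    · exact main (fun h' => absurd (by simpa using le_compl S h') hXN)

section

variable {S : SIdeal C} {D : Ultrafilter C} {F : Set (Nd C)} {LB : Nd C → Set (Set (C ⊕ C))}

lemma sum_le_iff {X Y : Set (C ⊕ C)} :
    S.sum.le X Y ↔ S.le (Sum.inl ⁻¹' X) (Sum.inl ⁻¹' Y) ∧ S.le (Sum.inr ⁻¹' X) (Sum.inr ⁻¹' Y) :=
  Iff.rfl

lemma hat_le_iff {X : Set (C ⊕ C)} {N : Nd C} :
    S.sum.le (hat N) X ↔ S.le N.a (Sum.inl ⁻¹' X) ∧ S.le N.b (Sum.inr ⁻¹' X) := by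
  rw [sum_le_iff, inl_hat, inr_hat]

lemma le_hat_iff {X : Set (C ⊕ C)} {N : Nd C} :
    S.sum.le X (hat N) ↔ S.le (Sum.inl ⁻¹' X) N.a ∧ S.le (Sum.inr ⁻¹' X) N.b := by
  rw [sum_le_iff, inl_hat, inr_hat]

lemma le_hatc_iff {X : Set (C ⊕ C)} {N : Nd C} :
    S.sum.le X (hat N)ᶜ ↔ S.le (Sum.inl ⁻¹' X) N.aᶜ ∧ S.le (Sum.inr ⁻¹' X) N.bᶜ := by
  rw [sum_le_iff, preimage_compl, preimage_compl, inl_hat, inr_hat]

lemma not_le_of_big (hSD : ∀ A, S.small A → A ∉ D) {X Y : Set C} (hX : X ∈ D) (hY : Y ∉ D) :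
    ¬ S.le X Y := by
  intro h
  refine hSD _ h ?_
  have : Yᶜ ∈ D := Ultrafilter.compl_mem_iff_notMem.mpr hY
  exact Filter.inter_mem hX this

/-- signed classes -/
def Cls (F : Set (Nd C)) (LB : Nd C → Set (Set (C ⊕ C))) (P : Set (C ⊕ C))
    (L : Set (Set (C ⊕ C))) : Prop :=
  ∃ N ∈ F, (P = hat N ∧ L = LB N) ∨ (P = (hat N)ᶜ ∧ L = {B | Bᶜ ∈ LB N})

lemma mem_bases_iff {B : Set (C ⊕ C)} : B ∈ bases F LB ↔ ∃ P L, Cls F LB P L ∧ B ∈ L := by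
  constructor
  · rintro ⟨N, hN, h | h⟩
    · exact ⟨_, _, ⟨N, hN, Or.inl ⟨rfl, rfl⟩⟩, h⟩
    · exact ⟨_, _, ⟨N, hN, Or.inr ⟨rfl, rfl⟩⟩, h⟩
  · rintro ⟨P, L, ⟨N, hN, ⟨rfl, rfl⟩ | ⟨rfl, rfl⟩⟩, h⟩
    · exact ⟨N, hN, Or.inl h⟩
    · exact ⟨N, hN, Or.inr h⟩

lemma hat_not_small (hSD : ∀ A, S.small A → A ∉ D) (hF : Good S D F) {N : Nd C} (hN : N ∈ F) :
    ¬ S.sum.small (hat N) := by
  intro h
  have h1 : S.small (Sum.inl ⁻¹' hat N) := h.1
  rw [inl_hat] at h1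
  exact hSD _ h1 (hF.ha N hN)

lemma Cls.local (hSD : ∀ A, S.small A → A ∉ D) (hF : Good S D F)
    (hLB : ∀ N ∈ F, LocalBases S.sum (hat N) (LB N)) {P : Set (C ⊕ C)}
    {L : Set (Set (C ⊕ C))} (h : Cls F LB P L) : LocalBases S.sum P L := by
  obtain ⟨N, hN, ⟨rfl, rfl⟩ | ⟨rfl, rfl⟩⟩ := h
  · exact hLB N hN
  · exact local_dual (hLB N hN) (hat_not_small hSD hF hN)

lemma Cls.eq_of_le (hSD : ∀ A, S.small A → A ∉ D) (hF : Good S D F)
    {P P' : Set (C ⊕ C)} {L L' : Set (Set (C ⊕ C))} (h : Cls F LB P L) (h' : Cls F LB P' L')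
    (hle : S.sum.le P P') : P = P' ∧ L = L' := by
  obtain ⟨N, hN, ⟨rfl, rfl⟩ | ⟨rfl, rfl⟩⟩ := h <;>
    obtain ⟨N', hN', ⟨rfl, rfl⟩ | ⟨rfl, rfl⟩⟩ := h'
  · rw [hat_le_iff, inl_hat, inr_hat] at hle
    have := hF.anti N hN N' hN' hle.1 hle.2
    subst this; exact ⟨rfl, rfl⟩
  · exfalso
    rw [hat_le_iff, preimage_compl, inl_hat] at hle
    refine not_le_of_big hSD (hF.ha N hN) ?_ hle.1
    exact fun hc => (Ultrafilter.compl_mem_iff_notMem.mp hc) (hF.ha N' hN')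
  · exfalso
    rw [le_hat_iff, preimage_compl, preimage_compl, inr_hat] at hle
    exact not_le_of_big hSD (Ultrafilter.compl_mem_iff_notMem.mpr (hF.hb N hN))
      (hF.hb N' hN') hle.2
  · have hle' : S.sum.le (hat N') (hat N) := (le_compl_iff S.sum).mp hle
    rw [hat_le_iff, inl_hat, inr_hat] at hle'
    have := hF.anti N' hN' N hN hle'.1 hle'.2
    subst this; exact ⟨rfl, rfl⟩

lemma Cls.mid (hSD : ∀ A, S.small A → A ∉ D) (hF : Good S D F)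
    (hLB : ∀ N ∈ F, LocalBases S.sum (hat N) (LB N)) {P : Set (C ⊕ C)}
    {L : Set (Set (C ⊕ C))} (h : Cls F LB P L) {I X : Set (C ⊕ C)} (hIX : I ⊆ X)
    (hI : ∃ B ∈ bases F LB, I ⊆ B)
    (hok : S.sum.le X P ∨ S.sum.le P I ∨ (S.sum.le I P ∧ S.sum.le P X)) :
    (∃ B ∈ L, I ⊆ B ∧ B ⊆ X) ∨ (∃ B ∈ L, X ⊆ B) := by
  have hloc := h.local hSD hF hLB
  obtain ⟨B0, hB0, hIB0⟩ := hI
  obtain ⟨P0, L0, h0, hB0L⟩ := mem_bases_iff.mp hB0
  have hloc0 := h0.local hSD hF hLB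
  have hIP0 : S.sum.le I P0 := le_trans' _ (le_of_subset _ hIB0) (hloc0.near B0 hB0L).1
  have case3 : S.sum.le I P → S.sum.le P X →
      (∃ B ∈ L, I ⊆ B ∧ B ⊆ X) ∨ (∃ B ∈ L, X ⊆ B) := by
    intro h1 h2
    rcases hloc.mid I X hIX h1 h2 (fun h3 => by
      obtain ⟨-, rfl⟩ := h.eq_of_le hSD hF h0 (le_trans' _ h3 hIP0)
      exact ⟨B0, hB0L, hIB0⟩) with h4 | ⟨-, h4⟩
    · exact Or.inl h4
    · exact Or.inr h4
  rcases hok with h1 | h1 | ⟨h1, h2⟩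
  · by_cases h2 : S.sum.le P X
    · exact case3 (le_trans' _ (le_of_subset _ hIX) h1) h2
    · rcases hloc.mid X univ (subset_univ _) h1 (le_of_subset _ (subset_univ _))
        (fun h3 => absurd h3 h2) with ⟨B, hB, h4, -⟩ | ⟨-, B, hB, h4⟩
      · exact Or.inr ⟨B, hB, h4⟩
      · exact Or.inr ⟨B, hB, (subset_univ _).trans h4⟩
  · obtain ⟨rfl, rfl⟩ := h.eq_of_le hSD hF h0 (le_trans' _ h1 hIP0)
    exact case3 hIP0 (le_trans' _ h1 (le_of_subset _ hIX))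
  · exact case3 h1 h2

/-- **[M2], part 1**: the union of the local bases and of their complements is a `UBase`. -/
theorem ubase (hSD : ∀ A, S.small A → A ∉ D) (hF : Final S D F)
    (hLB : ∀ N ∈ F, LocalBases S.sum (hat N) (LB N)) : UBase (bases F LB) := by
  have hG : Good S D F := hF.toGood
  have hmid : ∀ I X : Set (C ⊕ C), I ⊆ X → (∃ B ∈ bases F LB, I ⊆ B) →
      (∃ B ∈ bases F LB, I ⊆ B ∧ B ⊆ X) ∨ (∃ B ∈ bases F LB, X ⊆ B) := by
    intro I X hIX hI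
    have fin : ∀ P L, Cls F LB P L →
        (S.sum.le X P ∨ S.sum.le P I ∨ (S.sum.le I P ∧ S.sum.le P X)) →
        (∃ B ∈ bases F LB, I ⊆ B ∧ B ⊆ X) ∨ (∃ B ∈ bases F LB, X ⊆ B) := by
      intro P L hPL hok
      rcases hPL.mid hSD hG hLB hIX hI hok with ⟨B, hB, h1⟩ | ⟨B, hB, h1⟩
      · exact Or.inl ⟨B, mem_bases_iff.mpr ⟨P, L, hPL, hB⟩, h1⟩
      · exact Or.inr ⟨B, mem_bases_iff.mpr ⟨P, L, hPL, hB⟩, h1⟩
    rcases hF.all (Sum.inl ⁻¹' I) (Sum.inr ⁻¹' I) (Sum.inl ⁻¹' X) (Sum.inr ⁻¹' X)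
      (preimage_mono hIX) (preimage_mono hIX) with ⟨N, hN, h⟩ | ⟨N, hN, h⟩
    · refine fin (hat N) (LB N) ⟨N, hN, Or.inl ⟨rfl, rfl⟩⟩ ?_
      rw [le_hat_iff, hat_le_iff, le_hat_iff, hat_le_iff]
      exact h
    · refine fin (hat N)ᶜ {B | Bᶜ ∈ LB N} ⟨N, hN, Or.inr ⟨rfl, rfl⟩⟩ ?_
      have e1 : S.sum.le X (hat N)ᶜ ↔ S.le N.a (Sum.inl ⁻¹' X)ᶜ ∧ S.le N.b (Sum.inr ⁻¹' X)ᶜ := by
        rw [le_hatc_iff, ← le_compl_iff S (X := Sum.inl ⁻¹' X), ← le_compl_iff S (X := Sum.inr ⁻¹' X),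
          compl_compl, compl_compl]
      have e2 : S.sum.le (hat N)ᶜ I ↔ S.le (Sum.inl ⁻¹' I)ᶜ N.a ∧ S.le (Sum.inr ⁻¹' I)ᶜ N.b := by
        rw [← le_compl_iff S.sum, compl_compl, le_hat_iff, preimage_compl, preimage_compl]
      have e3 : S.sum.le I (hat N)ᶜ ↔ S.le N.a (Sum.inl ⁻¹' I)ᶜ ∧ S.le N.b (Sum.inr ⁻¹' I)ᶜ := by
        rw [le_hatc_iff, ← le_compl_iff S (X := Sum.inl ⁻¹' I), ← le_compl_iff S (X := Sum.inr ⁻¹' I),
          compl_compl, compl_compl]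
      have e4 : S.sum.le (hat N)ᶜ X ↔ S.le (Sum.inl ⁻¹' X)ᶜ N.a ∧ S.le (Sum.inr ⁻¹' X)ᶜ N.b := by
        rw [← le_compl_iff S.sum, compl_compl, le_hat_iff, preimage_compl, preimage_compl]
      rw [e1, e2, e3, e4]
      rcases h with h | h | ⟨h, h'⟩
      · exact Or.inr (Or.inl h)
      · exact Or.inl h
      · exact Or.inr (Or.inr ⟨h', h⟩)
  refine ⟨?_, ?_, ?_, hmid, ?_⟩
  · -- nonempty
    have : ∃ N, N ∈ F := by
      rcases hF.all ∅ ∅ ∅ ∅ (subset_refl _) (subset_refl _) with ⟨N, hN, -⟩ | ⟨N, hN, -⟩ <;>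
        exact ⟨N, hN⟩
    obtain ⟨N, hN⟩ := this
    rcases (hLB N hN).mid ∅ univ (empty_subset _) (le_of_subset _ (empty_subset _))
      (le_of_subset _ (subset_univ _)) (fun h' => absurd (by simpa [SIdeal.le] using h')
        (hat_not_small hSD hG hN)) with ⟨B, hB, -⟩ | ⟨-, B, hB, -⟩
    · exact ⟨B, N, hN, Or.inl hB⟩
    · exact ⟨B, N, hN, Or.inl hB⟩
  · -- swap
    intro B hB a ha b hb
    obtain ⟨P, L, hPL, hBL⟩ := mem_bases_iff.mp hB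
    exact mem_bases_iff.mpr ⟨P, L, hPL, (hPL.local hSD hG hLB).swap B hBL a ha b hb⟩
  · -- anti
    intro B hB B' hB' hBB
    obtain ⟨P, L, hPL, hBL⟩ := mem_bases_iff.mp hB
    obtain ⟨P', L', hPL', hBL'⟩ := mem_bases_iff.mp hB'
    have l := hPL.local hSD hG hLB
    have l' := hPL'.local hSD hG hLB
    obtain ⟨-, rfl⟩ := hPL.eq_of_le hSD hG hPL'
      (le_trans' _ (l.near B hBL).2 (le_trans' _ (le_of_subset _ hBB) (l'.near B' hBL').1))
    exact l.anti B hBL B' hBL' hBB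
  · -- compl
    rintro B ⟨N, hN, h | h⟩
    · exact ⟨N, hN, Or.inr (by simpa using h)⟩
    · exact ⟨N, hN, Or.inl h⟩

/-- **[M2], part 2**: there is no infinite chain starting with a big set. -/
theorem no_chain (hSD : ∀ A, S.small A → A ∉ D) (hF : Good S D F)
    (hLB : ∀ N ∈ F, LocalBases S.sum (hat N) (LB N)) :
    ¬ ∃ y : ℕ → Set C, y 0 ∈ D ∧
      ∀ j, ∃ B ∈ bases F LB, Sum.inl '' y j ∪ Sum.inr '' (y (j + 1))ᶜ ⊆ B := by
  rintro ⟨y, hy0, hy⟩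
  have step : ∀ j, y j ∈ D → ∃ N ∈ F, S.le (y j) N.a ∧ S.le (y (j + 1))ᶜ N.b := by
    intro j hj
    obtain ⟨B, hB, hsub⟩ := hy j
    obtain ⟨P, L, hPL, hBL⟩ := mem_bases_iff.mp hB
    have l := hPL.local hSD hF hLB
    have hle : S.sum.le (Sum.inl '' y j ∪ Sum.inr '' (y (j + 1))ᶜ) P :=
      le_trans' _ (le_of_subset _ hsub) (l.near B hBL).1
    have e1 : Sum.inl ⁻¹' (Sum.inl '' y j ∪ Sum.inr '' (y (j + 1))ᶜ : Set (C ⊕ C)) = y j := by
      ext x; simp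
    have e2 : Sum.inr ⁻¹' (Sum.inl '' y j ∪ Sum.inr '' (y (j + 1))ᶜ : Set (C ⊕ C))
        = (y (j + 1))ᶜ := by
      ext x; simp
    obtain ⟨N, hN, ⟨rfl, rfl⟩ | ⟨rfl, rfl⟩⟩ := hPL
    · rw [le_hat_iff, e1, e2] at hle
      exact ⟨N, hN, hle⟩
    · exfalso
      rw [le_hatc_iff, e1] at hle
      refine not_le_of_big hSD hj ?_ hle.1
      exact fun hc => (Ultrafilter.compl_mem_iff_notMem.mp hc) (hF.ha N hN)
  have big : ∀ j, y j ∈ D := by
    intro j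
    induction j with
    | zero => exact hy0
    | succ j ih =>
      obtain ⟨N, hN, -, h2⟩ := step j ih
      by_contra hc
      exact not_le_of_big hSD (Ultrafilter.compl_mem_iff_notMem.mpr hc) (hF.hb N hN) h2
  choose N hN h1 h2 using fun j => step j (big j)
  have dec : ∀ j, (N (j + 1)).r < (N j).r := by
    intro j
    have h3 : S.le (N j).bᶜ (N (j + 1)).a := by
      refine le_trans' S ?_ (h1 (j + 1))
      simpa using le_compl S (h2 j)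
    exact lt_of_le_of_lt (hF.rank _ (hN j) _ (hN (j + 1)) h3) (hF.hqr _ (hN j))
  obtain ⟨m, ⟨j, rfl⟩, hm⟩ := (wellFounded_lt (α := Ordinal.{0})).has_min
    (range fun j => (N j).r) ⟨_, ⟨0, rfl⟩⟩
  exact hm _ ⟨j + 1, rfl⟩ (dec j)

end

end Crest.Agent.R053.Fam
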