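import Crest.Agent.R053.Basic
import Crest.Agent.R053.Assembly

set_option autoImplicit false

/-! R53 (S0074), block M1: the matroid of a `UBase` family, and complementation of `LocalBases`. -/

namespace Crest.Agent.R053.Unif

open Set Matroid

/-- the matroid whose bases are the members of a `UBase` family -/
def toMatroid {α : Type} {ℬ : Set (Set α)} (h : UBase ℬ) : Matroid α where
  E := univ
  IsBase B := B ∈ ℬ
  Indep I := ∃ B, B ∈ ℬ ∧ I ⊆ B
  indep_iff' _ := Iff.rfl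
  exists_isBase := h.nonempty
  isBase_exchange := by
    intro X Y hX hY a ha
    have : ¬ Y ⊆ X := fun hYX => ha.2 (h.anti Y hY X hX hYX ▸ ha.1)
    obtain ⟨b, hb, hbX⟩ := Set.not_subset.1 this
    exact ⟨b, ⟨hb, hbX⟩, h.swap X hX a ha.1 b hbX⟩
  maximality := by
    rintro X - I ⟨B₀, hB₀, hI⟩ hIX
    rcases h.mid I X hIX ⟨B₀, hB₀, hI⟩ with ⟨B, hB, hIB, hBX⟩ | ⟨B, hB, hXB⟩
    · refine ⟨B, hIB, ⟨⟨B, hB, Subset.rfl⟩, hBX⟩, ?_⟩
      rintro K ⟨⟨B', hB', hK⟩, -⟩ hBK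
      have : B = B' := h.anti B hB B' hB' (hBK.trans hK)
      rw [this]; exact hK
    · exact ⟨X, hIX, ⟨⟨B, hB, hXB⟩, Subset.rfl⟩, fun K hK _ => hK.2⟩
  subset_ground _ _ := subset_univ _

/-- **Block M1.** A `UBase` family is the base family of a self-dual matroid on the whole type. -/
theorem exists_matroid {α : Type} {ℬ : Set (Set α)} (h : UBase ℬ) :
    ∃ U : Matroid α, U.E = univ ∧ U✶ = U ∧ ∀ B, U.IsBase B ↔ B ∈ ℬ :=
  ⟨toMatroid h, rfl, Assembly.dual_eq_of_base rfl fun B hB => h.compl B hB, fun _ => Iff.rfl⟩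

/-- complementation of local bases -/
theorem LocalBases.compl {α : Type} {S : SIdeal α} {N : Set α} {LB : Set (Set α)}
    (h : LocalBases S N LB) (hN : ¬ S.small N) : LocalBases S Nᶜ {B | Bᶜ ∈ LB} where
  near := by
    intro B hB
    obtain ⟨h1, h2⟩ := h.near _ hB
    refine ⟨S.mono ?_ h2, S.mono ?_ h1⟩
    · rintro x ⟨hx, hx'⟩
      exact ⟨not_not.1 hx', fun h => h hx⟩
    · rintro x ⟨hx, hx'⟩
      exact ⟨hx', hx⟩
  swap := by
    intro B hB a ha b hb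
    have := h.swap _ hB b hb a (fun h => h ha)
    have e : (insert b (B \ {a}))ᶜ = insert a (Bᶜ \ {b}) := by
      ext x
      by_cases hxa : x = a
      · subst hxa
        have : x ≠ b := fun h => hb (h ▸ ha)
        simp [this]
      · simp [hxa]; tauto
    show _ ∈ LB
    rw [e]; exact this
  anti := by
    intro B hB B' hB' hBB
    exact compl_injective (h.anti _ hB' _ hB (compl_subset_compl.2 hBB)).symm
  mid := by
    intro I X hIX hIN hNX hbd
    have hI' : S.le Xᶜ N := S.mono (fun x (hx : x ∈ Xᶜ \ N) => (⟨hx.2, hx.1⟩ : x ∈ Nᶜ \ X)) hNX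
    have hX' : S.le N Iᶜ :=
      S.mono (fun x (hx : x ∈ N \ Iᶜ) => (⟨not_not.1 hx.2, fun h => h hx.1⟩ : x ∈ I \ Nᶜ)) hIN
    have hsub : Xᶜ ⊆ Iᶜ := compl_subset_compl.2 hIX
    by_cases hc : S.le N Xᶜ → ∃ B ∈ LB, Xᶜ ⊆ B
    · left
      rcases h.mid Xᶜ Iᶜ hsub hI' hX' hc with ⟨B, hB, h1, h2⟩ | ⟨hle, B, hB, hXB⟩
      · refine ⟨Bᶜ, by simpa using hB, ?_, ?_⟩
        · rw [subset_compl_comm]; exact h2
        · rw [compl_subset_comm]; exact h1
      · have hle' : S.le Nᶜ I :=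
          S.mono (fun x (hx : x ∈ Nᶜ \ I) => (⟨hx.2, hx.1⟩ : x ∈ Iᶜ \ N)) hle
        obtain ⟨B₁, hB₁, hIB₁⟩ := hbd hle'
        have h3 : B₁ᶜ ⊆ B := (compl_subset_compl.2 hIB₁).trans hXB
        have h4 : B₁ᶜ = B := h.anti _ hB₁ _ hB h3
        refine ⟨B₁, hB₁, hIB₁, ?_⟩
        have h5 : B₁ ⊆ I := by
          rw [← compl_subset_compl, h4]; exact hXB
        exact h5.trans hIX
    · right
      obtain ⟨hle, hno⟩ := Classical.not_imp.1 hc
      refine ⟨S.mono (fun x (hx : x ∈ X \ Nᶜ) =>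
        (⟨not_not.1 hx.2, fun h => h hx.1⟩ : x ∈ N \ Xᶜ)) hle, ?_⟩
      rcases h.mid ∅ Xᶜ (empty_subset _) (S.mono (fun x (hx : x ∈ (∅ : Set α) \ N) => hx.1) S.empty) hle
        (fun hsm => absurd (S.mono (fun x (hx : x ∈ N) =>
          (⟨hx, fun h => h⟩ : x ∈ N \ (∅ : Set α))) hsm) hN) with
        ⟨B, hB, -, h2⟩ | ⟨-, B, hB, h2⟩
      · exact ⟨Bᶜ, by simpa using hB, by rw [subset_compl_comm]; exact h2⟩
      · exact absurd ⟨B, hB, h2⟩ hno

end Crest.Agent.R053.Unif
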