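import Crest.Agent.R053.Basic
import Crest.Agent.R053.Assembly
import Crest.Agent.R053.Unif

set_option autoImplicit false

/-! R53 (S0074): from the family of bases on `CC ⊕ CC` to the conclusion of S0074. -/

namespace Crest.Agent.R053.Glue

open Set Matroid

theorem glue {C : Type} [Countable C] [Infinite C] (D : Ultrafilter C) (ℬ : Set (Set (C ⊕ C)))
    (hU : UBase ℬ)
    (hch : ¬ ∃ y : ℕ → Set C, y 0 ∈ D ∧
      ∀ j, ∃ B ∈ ℬ, Sum.inl '' y j ∪ Sum.inr '' (y (j+1))ᶜ ⊆ B) :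
    ∃ M₀ M₁ : Matroid ℕ, M₀.E = Set.univ ∧ M₁.E = Set.univ ∧ M₀.dual = M₀ ∧ M₁.dual = M₁ ∧
      (∀ I₀ I₁ : Set ℕ, M₀.Indep I₀ → M₁.Indep I₁ → I₀ ∪ I₁ ≠ Set.univ) ∧
      ¬ ∃ P C S₀ S₁ I₀ I₁ : Set ℕ, P ∪ C = Set.univ ∧ Disjoint P C ∧
          S₀ ⊆ P ∧ S₁ ⊆ P ∧ Disjoint S₀ S₁ ∧
          (M₀.restrict P).closure S₀ = P ∧ (M₁.restrict P).closure S₁ = P ∧
          I₀ ⊆ C ∧ I₁ ⊆ C ∧ (M₀.contract Cᶜ).Indep I₀ ∧ (M₁.contract Cᶜ).Indep I₁ ∧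
          I₀ ∪ I₁ = C := by
  obtain ⟨U, hE, hdual, hB⟩ := Unif.exists_matroid hU
  refine Assembly.assembly U hE hdual (fun x => x ∈ D) (fun x => Ultrafilter.mem_or_compl_mem D x) ?_
  rintro ⟨y, h0, hy⟩
  refine hch ⟨y, h0, fun j => ?_⟩
  obtain ⟨B, hBB, hsub⟩ := (Matroid.indep_iff).1 (hy j)
  exact ⟨B, (hB B).1 hBB, hsub⟩

instance : Infinite CC := by
  refine Infinite.of_injective (fun n : ℕ => (⟨n, fun _ => true⟩ : CC)) ?_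
  intro a b h
  exact congrArg Sigma.fst h

end Crest.Agent.R053.Glue
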