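import Crest.Agent.R053.Basic

/-!
# R53 block [L]: the local rule (section 1 of helper901's proof)
-/

set_option autoImplicit false

namespace Crest.Agent.R053.Local

open Set Filter Topology

variable {α : Type}

/-- number of elements of `X` in blocks `≤ n` -/
noncomputable def cnt (blk : α → ℕ) (X : Set α) (n : ℕ) : ℕ := {x ∈ X | blk x ≤ n}.ncard

/-- excess of `X` over `N` up to block `n` -/
noncomputable def ex (blk : α → ℕ) (N X : Set α) (n : ℕ) : ℝ :=
  (cnt blk X n : ℝ) - (cnt blk N n : ℝ)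

/-- every relative excess after `m` is dominated by a later relative deficit -/
def INDm (blk : α → ℕ) (g : ℕ → ℝ) (N : Set α) (m : ℕ) (X : Set α) : Prop :=
  ∀ n ≥ m, 0 < ex blk N X n → ∃ n' > n, ex blk N X n * g n' ≤ - ex blk N X n' * g n

def IND (blk : α → ℕ) (g : ℕ → ℝ) (N : Set α) (X : Set α) : Prop :=
  ∃ m, INDm blk g N m X

/-- the local bases -/
def LB (S : SIdeal α) (blk : α → ℕ) (g : ℕ → ℝ) (N : Set α) : Set (Set α) :=
  {B | (S.le B N ∧ S.le N B) ∧ IND blk g N B ∧ ∀ e ∉ B, ¬ IND blk g N (insert e B)}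

section basics

variable {blk : α → ℕ} (hfin : ∀ n, {x | blk x = n}.Finite)

include hfin

theorem fin_le (X : Set α) (n : ℕ) : {x ∈ X | blk x ≤ n}.Finite := by
  have h : (⋃ i ∈ Set.Iic n, {x | blk x = i}).Finite :=
    (Set.finite_Iic n).biUnion (fun i _ => hfin i)
  refine h.subset ?_
  intro x hx
  simp only [mem_iUnion, mem_ofPred_eq, mem_Iic]
  exact ⟨blk x, hx.2, rfl⟩

theorem cnt_mono {X Y : Set α} (h : X ⊆ Y) (n : ℕ) : cnt blk X n ≤ cnt blk Y n :=
  ncard_le_ncard (fun _ hx => ⟨h hx.1, hx.2⟩) (fin_le hfin Y n)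

theorem ex_mono (N : Set α) {X Y : Set α} (h : X ⊆ Y) (n : ℕ) : ex blk N X n ≤ ex blk N Y n := by
  unfold ex
  have := cnt_mono hfin h n
  have : (cnt blk X n : ℝ) ≤ cnt blk Y n := by exact_mod_cast this
  linarith

theorem cnt_union {X Y : Set α} (h : Disjoint X Y) (n : ℕ) :
    cnt blk (X ∪ Y) n = cnt blk X n + cnt blk Y n := by
  unfold cnt
  rw [← ncard_union_eq ?_ (fin_le hfin X n) (fin_le hfin Y n)]
  · congr 1
    ext x; constructor
    · rintro ⟨h1 | h1, h2⟩
      · exact Or.inl ⟨h1, h2⟩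
      · exact Or.inr ⟨h1, h2⟩
    · rintro (⟨h1, h2⟩ | ⟨h1, h2⟩)
      · exact ⟨Or.inl h1, h2⟩
      · exact ⟨Or.inr h1, h2⟩
  · exact h.mono (fun x hx => hx.1) (fun x hx => hx.1)

theorem ex_union (N : Set α) {X Y : Set α} (h : Disjoint X Y) (n : ℕ) :
    ex blk N (X ∪ Y) n = ex blk N X n + cnt blk Y n := by
  unfold ex
  rw [cnt_union hfin h n]; push_cast; ring

theorem ex_diff (N : Set α) {X Y : Set α} (h : Y ⊆ X) (n : ℕ) :
    ex blk N (X \ Y) n = ex blk N X n - cnt blk Y n := by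
  have h1 : (X \ Y) ∪ Y = X := sdiff_union_of_subset h
  have h2 := ex_union hfin N (X := X \ Y) (Y := Y) disjoint_sdiff_left n
  rw [h1] at h2
  linarith

omit hfin in
theorem cnt_singleton_of_le {e : α} {n : ℕ} (h : blk e ≤ n) : cnt blk {e} n = 1 := by
  unfold cnt
  have : {x ∈ ({e} : Set α) | blk x ≤ n} = {e} := by
    ext x; constructor
    · rintro ⟨h1, _⟩; exact h1
    · intro hx; rw [mem_singleton_iff] at hx; subst hx; exact ⟨rfl, h⟩
  rw [this, ncard_singleton]

omit hfin in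
theorem cnt_singleton_of_lt {e : α} {n : ℕ} (h : n < blk e) : cnt blk {e} n = 0 := by
  unfold cnt
  have : {x ∈ ({e} : Set α) | blk x ≤ n} = ∅ := by
    ext x; constructor
    · rintro ⟨h1, h2⟩; rw [mem_singleton_iff] at h1; subst h1; omega
    · intro hx; exact hx.elim
  rw [this, ncard_empty]

theorem ex_insert_of_le (N : Set α) {X : Set α} {e : α} (he : e ∉ X) {n : ℕ} (h : blk e ≤ n) :
    ex blk N (insert e X) n = ex blk N X n + 1 := by
  rw [insert_eq, union_comm, ex_union hfin N (disjoint_singleton_right.2 he),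
    cnt_singleton_of_le h]; norm_num

theorem ex_insert_of_lt (N : Set α) {X : Set α} {e : α} (he : e ∉ X) {n : ℕ} (h : n < blk e) :
    ex blk N (insert e X) n = ex blk N X n := by
  rw [insert_eq, union_comm, ex_union hfin N (disjoint_singleton_right.2 he),
    cnt_singleton_of_lt h]; norm_num

theorem ex_swap (N : Set α) {X : Set α} {a b : α} (ha : a ∈ X) (hb : b ∉ X) {n : ℕ}
    (han : blk a ≤ n) (hbn : blk b ≤ n) :
    ex blk N (insert b (X \ {a})) n = ex blk N X n := by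
  rw [ex_insert_of_le hfin N (fun h => hb h.1) hbn,
    ex_diff hfin N (singleton_subset_iff.2 ha), cnt_singleton_of_le han]
  norm_num

variable {g : ℕ → ℝ} (hg : ∀ n, 0 < g n)

include hg

theorem INDm_anti {N X Y : Set α} {m : ℕ} (h : X ⊆ Y) (hY : INDm blk g N m Y) :
    INDm blk g N m X := by
  intro n hn hpos
  have h1 := ex_mono hfin N h n
  obtain ⟨n', hn', h2⟩ := hY n hn (lt_of_lt_of_le hpos h1)
  refine ⟨n', hn', ?_⟩
  have h3 := ex_mono hfin N h n'
  calc ex blk N X n * g n' ≤ ex blk N Y n * g n' :=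
        mul_le_mul_of_nonneg_right h1 (hg n').le
    _ ≤ - ex blk N Y n' * g n := h2
    _ ≤ - ex blk N X n' * g n := mul_le_mul_of_nonneg_right (by linarith) (hg n).le

theorem IND_anti {N X Y : Set α} (h : X ⊆ Y) (hY : IND blk g N Y) : IND blk g N X :=
  hY.imp fun _ hm => INDm_anti hfin hg h hm

omit hfin hg in
theorem INDm_mono {N X : Set α} {m m' : ℕ} (h : m ≤ m') (hX : INDm blk g N m X) :
    INDm blk g N m' X := fun _ hn => hX _ (h.trans hn)

omit hfin hg in
theorem IND_congr {N X Y : Set α} {k : ℕ} (h : ∀ n ≥ k, ex blk N X n = ex blk N Y n)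
    (hX : IND blk g N X) : IND blk g N Y := by
  obtain ⟨m, hm⟩ := hX
  refine ⟨max m k, fun n hn hpos => ?_⟩
  have h1 := h n ((le_max_right _ _).trans hn)
  rw [← h1] at hpos
  obtain ⟨n', hn', h2⟩ := hm n ((le_max_left _ _).trans hn) hpos
  refine ⟨n', hn', ?_⟩
  rw [← h1, ← h n' (by have := le_max_right m k; omega)]
  exact h2

omit hg in
theorem IND_swap {N X : Set α} {a b : α} (ha : a ∈ X) (hb : b ∉ X)
    (hX : IND blk g N X) : IND blk g N (insert b (X \ {a})) :=
  IND_congr (k := max (blk a) (blk b)) (fun n hn => (ex_swap hfin N ha hb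
    ((le_max_left _ _).trans hn) ((le_max_right _ _).trans hn)).symm) hX

omit hg in
/-- if one insertion leaves IND then all do -/
theorem not_IND_insert {N X : Set α} {a b : α} (ha : a ∉ X) (hb : b ∉ X)
    (h : ¬ IND blk g N (insert a X)) : ¬ IND blk g N (insert b X) := by
  intro hX
  by_cases hab : a = b
  · subst hab; exact h hX
  · have h1 := IND_swap hfin (mem_insert b X) (b := a)
      (by simp [hab, ha]) hX
    apply h
    have : insert b X \ {b} = X := by
      rw [insert_sdiff_of_mem _ (mem_singleton b)]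
      exact sdiff_singleton_eq_self hb
    rwa [this] at h1

end basics

section F1

variable {blk : α → ℕ} (hfin : ∀ n, {x | blk x = n}.Finite) {g : ℕ → ℝ} (hg : ∀ n, 0 < g n)

include hfin hg

/-- `INDm` is closed under unions of chains above a set whose excess is `o(g)`. -/
theorem INDm_sUnion {N : Set α} {m : ℕ} {J₀ : Set α} {c : Set (Set α)}
    (h0 : Tendsto (fun n => ex blk N J₀ n / g n) atTop (𝓝 0)) (hJ₀ : J₀ ∈ c)
    (hc : IsChain (· ⊆ ·) c) (hm : ∀ J ∈ c, INDm blk g N m J) :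
    INDm blk g N m (⋃₀ c) := by
  intro n hn hpos
  have hgn := hg n
  have hev : ∀ᶠ k in atTop, - (ex blk N (⋃₀ c) n / g n) < ex blk N J₀ k / g k :=
    h0.eventually (lt_mem_nhds (by
      have : 0 < ex blk N (⋃₀ c) n / g n := div_pos hpos hgn
      linarith))
  obtain ⟨K, hK⟩ := eventually_atTop.1 hev
  set K' := max K n with hK'
  have hfinU : ({x ∈ ⋃₀ c | blk x ≤ K'}).Finite := fin_le hfin _ _
  obtain ⟨J₁, hJ₁c, hJ₁⟩ := hc.directedOn.exists_mem_subset_of_finite_of_subset_sUnion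
    ⟨J₀, hJ₀⟩ hfinU (fun x hx => hx.1)
  obtain ⟨J, hJc, h0J, h1J⟩ := hc.directedOn J₀ hJ₀ J₁ hJ₁c
  have hJU : J ⊆ ⋃₀ c := subset_sUnion_of_mem hJc
  have hexeq : ∀ k ≤ K', ex blk N J k = ex blk N (⋃₀ c) k := by
    intro k hk
    unfold ex
    congr 2
    unfold cnt
    congr 1
    ext x; constructor
    · rintro ⟨h1, h2⟩; exact ⟨hJU h1, h2⟩
    · rintro ⟨h1, h2⟩; exact ⟨h1J (hJ₁ ⟨h1, h2.trans hk⟩), h2⟩
  have hn' : n ≤ K' := le_max_right _ _
  have hpos' : 0 < ex blk N J n := by rw [hexeq n hn']; exact hpos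
  obtain ⟨n', hn'n, h2⟩ := hm J hJc n hn hpos'
  rw [hexeq n hn'] at h2
  have hlt : n' < K := by
    by_contra hcon
    push Not at hcon
    have h3 := hK n' hcon
    have h4 : ex blk N J₀ n' ≤ ex blk N J n' := ex_mono hfin N h0J n'
    have hgn' := hg n'
    rw [neg_lt, ← neg_div, div_lt_div_iff₀ hgn' hgn] at h3
    have h5 : - ex blk N J n' * g n ≤ - ex blk N J₀ n' * g n :=
      mul_le_mul_of_nonneg_right (by linarith) hgn.le
    linarith
  refine ⟨n', hn'n, ?_⟩
  rw [← hexeq n' (hlt.le.trans (le_max_left _ _))]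
  exact h2

omit hfin hg in
/-- finite case of F1 -/
theorem fin_case {N : Set α} (X : Set α) (k : ℕ) : ∀ J : Set α, J ⊆ X → (X \ J).Finite →
    (X \ J).ncard = k → IND blk g N J → ¬ IND blk g N X →
    ∃ J', J ⊆ J' ∧ J' ⊆ X ∧ IND blk g N J' ∧ ∃ e ∈ X \ J', ¬ IND blk g N (insert e J') := by
  induction k with
  | zero =>
    intro J hJX hf hc hJ hX
    exfalso
    rw [ncard_eq_zero hf, sdiff_eq_empty] at hc
    exact hX (by rwa [subset_antisymm hc hJX])
  | succ k ih =>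
    intro J hJX hf hc hJ hX
    have hne : (X \ J).Nonempty := by
      rw [← ncard_pos hf]; omega
    obtain ⟨e, he⟩ := hne
    by_cases h : IND blk g N (insert e J)
    · have h1 : X \ insert e J = (X \ J) \ {e} := by
        ext x; simp only [Set.mem_sdiff, mem_insert_iff, mem_singleton_iff, not_or]; tauto
      have h2 : (X \ insert e J).Finite := by rw [h1]; exact hf.sdiff
      have h3 : (X \ insert e J).ncard = k := by
        rw [h1, ncard_sdiff_singleton_of_mem he, hc]; rfl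
      obtain ⟨J', h4, h5, h6, h7⟩ := ih (insert e J) (insert_subset he.1 hJX) h2 h3 h hX
      exact ⟨J', (subset_insert _ _).trans h4, h5, h6, h7⟩
    · exact ⟨J, Subset.rfl, hJX, hJ, e, he, h⟩

theorem F1 {N I X : Set α} (hIX : I ⊆ X)
    (h0 : Tendsto (fun n => ex blk N I n / g n) atTop (𝓝 0))
    (hI : IND blk g N I) (hX : ¬ IND blk g N X) :
    ∃ J, I ⊆ J ∧ J ⊆ X ∧ IND blk g N J ∧ ∀ e ∉ J, ¬ IND blk g N (insert e J) := by
  obtain ⟨m₀, hm₀⟩ := hI
  obtain ⟨J, hIJ, hJmax⟩ := zorn_subset_nonempty {J | I ⊆ J ∧ J ⊆ X ∧ INDm blk g N m₀ J} (by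
    intro c hc hchain hne
    obtain ⟨J₀, hJ₀⟩ := hne
    have h1 := hc hJ₀
    -- add `I` to the chain
    refine ⟨⋃₀ (insert I c), ⟨subset_sUnion_of_mem (mem_insert _ _), ?_, ?_⟩, ?_⟩
    · apply sUnion_subset
      rintro J (rfl | hJ)
      · exact hIX
      · exact (hc hJ).2.1
    · apply INDm_sUnion hfin hg h0 (mem_insert _ _)
      · exact hchain.insert (fun J hJ _ => Or.inl (hc hJ).1)
      · rintro J (rfl | hJ)
        · exact hm₀
        · exact (hc hJ).2.2
    · intro J hJ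
      exact subset_sUnion_of_mem (mem_insert_of_mem _ hJ)) I ⟨Subset.rfl, hIX, hm₀⟩
  obtain ⟨hJ1, hJX, hJm⟩ := hJmax.prop
  -- it suffices to find J' with one bad insertion
  suffices h : ∃ J', J ⊆ J' ∧ J' ⊆ X ∧ IND blk g N J' ∧
      ∃ e ∈ X \ J', ¬ IND blk g N (insert e J') by
    obtain ⟨J', h1, h2, h3, e, he, h4⟩ := h
    exact ⟨J', hJ1.trans h1, h2, h3, fun e' he' => not_IND_insert hfin he.2 he' h4⟩
  by_cases hf : (X \ J).Finite
  · exact fin_case X _ J hJX hf rfl ⟨m₀, hJm⟩ hX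
  · have hne : (X \ J).Nonempty := by
      by_contra h
      rw [not_nonempty_iff_eq_empty] at h
      exact hf (by rw [h]; exact finite_empty)
    obtain ⟨e, he⟩ := hne
    refine ⟨J, Subset.rfl, hJX, ⟨m₀, hJm⟩, e, he, ?_⟩
    rintro ⟨m₁', hm₁'⟩
    -- enlarge m₁
    set m₁ := max m₁' (max m₀ (blk e + 1)) with hm₁def
    have hm₁ : INDm blk g N m₁ (insert e J) := INDm_mono (le_max_left _ _) hm₁'
    have hm01 : m₀ ≤ m₁ := (le_max_left _ _).trans (le_max_right _ _)
    have hem1 : blk e < m₁ := by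
      have : blk e + 1 ≤ m₁ := (le_max_right _ _).trans (le_max_right _ _)
      omega
    -- witnesses for n in [m₀, m₁)
    have hw : ∀ n, ∃ w : ℕ, m₀ ≤ n → 0 < ex blk N J n →
        n < w ∧ ex blk N J n * g w ≤ - ex blk N J w * g n := by
      intro n
      by_cases h : m₀ ≤ n ∧ 0 < ex blk N J n
      · obtain ⟨w, hw1, hw2⟩ := hJm n h.1 h.2
        exact ⟨w, fun _ _ => ⟨hw1, hw2⟩⟩
      · exact ⟨0, fun h1 h2 => absurd ⟨h1, h2⟩ h⟩
    choose w hw using hw
    set W := m₁ + (Finset.range m₁).sup w with hW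
    have hfar : ∃ e' ∈ X \ J, W < blk e' := by
      by_contra hcon
      push Not at hcon
      apply hf
      refine (fin_le hfin (X \ J) W).subset ?_
      intro x hx
      exact ⟨hx, hcon x hx⟩
    obtain ⟨e', he', hWe'⟩ := hfar
    have hnew : INDm blk g N m₀ (insert e' J) := by
      intro n hn hpos
      by_cases hnm : n < m₁
      · have hne' : n < blk e' := by omega
        rw [ex_insert_of_lt hfin N he'.2 hne'] at hpos ⊢
        obtain ⟨h1, h2⟩ := hw n hn hpos
        refine ⟨w n, h1, ?_⟩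
        have h3 : w n ≤ (Finset.range m₁).sup w :=
          Finset.le_sup (f := w) (Finset.mem_range.2 hnm)
        rw [ex_insert_of_lt hfin N he'.2 (by omega)]
        exact h2
      · push Not at hnm
        have hle : ∀ k ≥ m₁, ex blk N (insert e' J) k ≤ ex blk N (insert e J) k := by
          intro k hk
          rw [ex_insert_of_le hfin N he.2 (by omega)]
          by_cases hk' : k < blk e'
          · rw [ex_insert_of_lt hfin N he'.2 hk']; linarith
          · rw [ex_insert_of_le hfin N he'.2 (by omega)]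
        have h1 := hle n hnm
        obtain ⟨n', hn', h2⟩ := hm₁ n hnm (lt_of_lt_of_le hpos h1)
        refine ⟨n', hn', ?_⟩
        have h3 := hle n' (by omega)
        calc ex blk N (insert e' J) n * g n' ≤ ex blk N (insert e J) n * g n' :=
              mul_le_mul_of_nonneg_right h1 (hg n').le
          _ ≤ - ex blk N (insert e J) n' * g n := h2
          _ ≤ - ex blk N (insert e' J) n' * g n :=
              mul_le_mul_of_nonneg_right (by linarith) (hg n).le
    have hmem : insert e' J ∈ {J | I ⊆ J ∧ J ⊆ X ∧ INDm blk g N m₀ J} :=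
      ⟨hJ1.trans (subset_insert _ _), insert_subset he'.1 hJX, hnew⟩
    have := hJmax.le_of_ge hmem (subset_insert _ _)
    exact he'.2 (this (mem_insert _ _))

end F1

section select

variable {blk : α → ℕ} (hfin : ∀ n, {x | blk x = n}.Finite) {g : ℕ → ℝ} (hg : ∀ n, 0 < g n)
  (hginf : Tendsto g atTop atTop) (S : SIdeal α)
  (hsmall : ∀ s, S.small s ↔
    Tendsto (fun n => ({x ∈ s | blk x = n}.ncard : ℝ) / g n) atTop (𝓝 0))

include hfin hg hginf hsmall

theorem select {P : Set α} (hP : ¬ S.small P) (ρ : ℕ → ℝ) (hρ0 : ∀ n, 0 ≤ ρ n)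
    (hρ : Antitone ρ) (hρt : Tendsto ρ atTop (𝓝 0)) :
    ∃ S₀ ⊆ P, S.small S₀ ∧ ∃ n₀, ∀ n ≥ n₀, ∃ n' > n,
      ρ n * g n' ≤ ({x ∈ S₀ | blk x = n'}.ncard : ℝ) := by
  classical
  -- blocks on which `P` is dense
  have h1 : ∃ ε > 0, ∃ᶠ n in atTop, ε ≤ ({x ∈ P | blk x = n}.ncard : ℝ) / g n := by
    by_contra hcon
    push Not at hcon
    apply hP
    rw [hsmall]
    rw [Metric.tendsto_atTop]
    intro ε hε
    have h2 := hcon ε hε
    rw [eventually_atTop] at h2
    obtain ⟨M, hM⟩ := h2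
    refine ⟨M, fun n hn => ?_⟩
    have h3 := hM n hn
    rw [Real.dist_eq, sub_zero, abs_of_nonneg (div_nonneg (Nat.cast_nonneg _) (hg n).le)]
    exact h3
  obtain ⟨ε, hε, hfreq⟩ := h1
  obtain ⟨φ, hφ, hφP⟩ := extraction_of_frequently_atTop hfreq
  have hfinb : ∀ (s : Set α) (n : ℕ), ({x ∈ s | blk x = n}).Finite := fun s n =>
    (hfin n).subset (fun x hx => hx.2)
  -- choose the pieces
  have hT : ∀ k, ∃ T ⊆ {x ∈ P | blk x = φ (k+1)}, T.ncard =
      min ⌈ρ (φ k) * g (φ (k+1))⌉₊ ({x ∈ P | blk x = φ (k+1)}).ncard := fun k =>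
    exists_subset_card_eq (min_le_right _ _)
  choose T hTP hTc using hT
  have hblk : ∀ k, {x ∈ ⋃ k, T k | blk x = φ (k+1)} = T k := by
    intro k
    ext x; constructor
    · rintro ⟨h1, h2⟩
      obtain ⟨j, hj⟩ := mem_iUnion.1 h1
      have h3 := (hTP j hj).2
      have h4 : j + 1 = k + 1 := hφ.injective (h3.symm.trans h2)
      have h5 : j = k := by omega
      rw [← h5]; exact hj
    · intro hx
      exact ⟨mem_iUnion.2 ⟨k, hx⟩, (hTP k hx).2⟩
  refine ⟨⋃ k, T k, iUnion_subset (fun k x hx => (hTP k hx).1), ?_, ?_⟩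
  · -- small
    rw [hsmall, Metric.tendsto_atTop]
    intro δ hδ
    have hρφ : Tendsto (fun k => ρ (φ k)) atTop (𝓝 0) := hρt.comp hφ.tendsto_atTop
    obtain ⟨K, hK⟩ := eventually_atTop.1 (hρφ.eventually (gt_mem_nhds (half_pos hδ)))
    obtain ⟨N₂, hN₂⟩ := eventually_atTop.1 (hginf.eventually_gt_atTop (2 / δ))
    refine ⟨max (φ (K+1)) N₂, fun n hn => ?_⟩
    have hgn := hg n
    have hn1 : φ (K+1) ≤ n := (le_max_left _ _).trans hn
    have hn2 : N₂ ≤ n := (le_max_right _ _).trans hn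
    rw [Real.dist_eq, sub_zero, abs_of_nonneg (div_nonneg (Nat.cast_nonneg _) hgn.le),
      div_lt_iff₀ hgn]
    by_cases hex : ∃ k, φ (k+1) = n
    · obtain ⟨k, rfl⟩ := hex
      have hKk : K ≤ k := by
        have := hφ.le_iff_le.1 hn1
        omega
      rw [hblk k, hTc k]
      have h2 : ((min ⌈ρ (φ k) * g (φ (k+1))⌉₊ ({x ∈ P | blk x = φ (k+1)}).ncard : ℕ) : ℝ) ≤
          (⌈ρ (φ k) * g (φ (k+1))⌉₊ : ℝ) := by exact_mod_cast min_le_left _ _
      have h3 : (⌈ρ (φ k) * g (φ (k+1))⌉₊ : ℝ) < ρ (φ k) * g (φ (k+1)) + 1 :=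
        Nat.ceil_lt_add_one (mul_nonneg (hρ0 _) hgn.le)
      have h4 := hK k hKk
      have h5 := hN₂ _ hn2
      rw [div_lt_iff₀ hδ] at h5
      nlinarith
    · have : {x ∈ ⋃ k, T k | blk x = n} = ∅ := by
        rw [eq_empty_iff_forall_notMem]
        rintro x ⟨h1, h2⟩
        obtain ⟨j, hj⟩ := mem_iUnion.1 h1
        exact hex ⟨j, (hTP j hj).2.symm.trans h2⟩
      rw [this, ncard_empty]
      simp only [Nat.cast_zero]
      positivity
  · -- eventually the ceiling is at most the number of elements of P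
    have hρφ : Tendsto (fun k => ρ (φ k)) atTop (𝓝 0) := hρt.comp hφ.tendsto_atTop
    obtain ⟨K, hK⟩ := eventually_atTop.1 (hρφ.eventually (gt_mem_nhds (half_pos hε)))
    have hgφ : Tendsto (fun k => g (φ k)) atTop atTop := hginf.comp hφ.tendsto_atTop
    obtain ⟨K₂, hK₂⟩ := eventually_atTop.1 (hgφ.eventually_gt_atTop (2 / ε))
    refine ⟨φ (max K K₂), fun n hn => ?_⟩
    -- the index `k` with `φ k ≤ n < φ (k+1)`
    have hex : ∃ k, n < φ k := ⟨n + 1, lt_of_lt_of_le (Nat.lt_succ_self n) (hφ.id_le (n+1))⟩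
    set j := Nat.find hex with hj
    have hj1 : n < φ j := Nat.find_spec hex
    have hj2 : ∀ i < j, φ i ≤ n := fun i hi => not_lt.1 (Nat.find_min hex hi)
    have hj0 : max K K₂ < j := hφ.lt_iff_lt.1 (lt_of_le_of_lt hn hj1)
    obtain ⟨k, hk⟩ : ∃ k, j = k + 1 := ⟨j - 1, by omega⟩
    have hkn : φ k ≤ n := hj2 k (by omega)
    have hkK : max K K₂ ≤ k := by omega
    refine ⟨φ (k+1), by rw [← hk]; exact hj1, ?_⟩
    rw [hblk k, hTc k]
    have hgn := hg (φ (k+1))
    have h2 := hφP (k+1)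
    rw [le_div_iff₀ hgn] at h2
    have h3 : (⌈ρ (φ k) * g (φ (k+1))⌉₊ : ℝ) < ρ (φ k) * g (φ (k+1)) + 1 :=
      Nat.ceil_lt_add_one (mul_nonneg (hρ0 _) hgn.le)
    have h4 := hK k ((le_max_left _ _).trans hkK)
    have h5 := hK₂ (k+1) (((le_max_right _ _).trans hkK).trans (Nat.le_succ k))
    rw [div_lt_iff₀ hε] at h5
    have h6 : (⌈ρ (φ k) * g (φ (k+1))⌉₊ : ℝ) ≤ ({x ∈ P | blk x = φ (k+1)}.ncard : ℝ) := by
      nlinarith
    have h7 : ⌈ρ (φ k) * g (φ (k+1))⌉₊ ≤ {x ∈ P | blk x = φ (k+1)}.ncard := by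
      exact_mod_cast h6
    rw [min_eq_left h7]
    calc ρ n * g (φ (k+1)) ≤ ρ (φ k) * g (φ (k+1)) :=
          mul_le_mul_of_nonneg_right (hρ hkn) hgn.le
      _ ≤ _ := Nat.le_ceil _

end select

/-- antitone majorant of a null sequence -/
theorem exists_majorant {u : ℕ → ℝ} (hu : Tendsto u atTop (𝓝 0)) :
    ∃ ρ : ℕ → ℝ, (∀ n, 0 ≤ ρ n) ∧ Antitone ρ ∧ Tendsto ρ atTop (𝓝 0) ∧
      ∀ n, ∀ i ≥ n, |u i| ≤ ρ n := by
  have hu' : Tendsto (fun i => |u i|) atTop (𝓝 0) := by simpa using hu.abs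
  have hbdd : BddAbove (range fun i => |u i|) := hu'.bddAbove_range
  have hbdd' : ∀ n, BddAbove (range fun i => |u (n + i)|) := fun n =>
    hbdd.mono (by rintro _ ⟨i, rfl⟩; exact ⟨n + i, rfl⟩)
  have hle : ∀ n, ∀ i ≥ n, |u i| ≤ ⨆ i, |u (n + i)| := by
    intro n i hi
    have := le_ciSup (hbdd' n) (i - n)
    simpa [Nat.add_sub_cancel' hi] using this
  refine ⟨fun n => ⨆ i, |u (n + i)|, fun n => (abs_nonneg _).trans (hle n n le_rfl), ?_, ?_, hle⟩
  · intro m n hmn
    exact ciSup_le fun i => hle m (n + i) (by omega)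
  · rw [Metric.tendsto_atTop]
    intro ε hε
    obtain ⟨K, hK⟩ := eventually_atTop.1 (hu'.eventually (gt_mem_nhds (half_pos hε)))
    refine ⟨K, fun n hn => ?_⟩
    have h1 : (⨆ i, |u (n + i)|) ≤ ε / 2 := ciSup_le fun i => (hK (n + i) (by omega)).le
    have h0 : 0 ≤ ⨆ i, |u (n + i)| := (abs_nonneg _).trans (hle n n le_rfl)
    rw [Real.dist_eq, sub_zero, abs_of_nonneg h0]
    linarith

section F23

variable {blk : α → ℕ} (hfin : ∀ n, {x | blk x = n}.Finite) {g : ℕ → ℝ} (hg : ∀ n, 0 < g n)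
  (hginf : Tendsto g atTop atTop) (S : SIdeal α)
  (hsmall : ∀ s, S.small s ↔
    Tendsto (fun n => ({x ∈ s | blk x = n}.ncard : ℝ) / g n) atTop (𝓝 0))
  (hcum : ∀ s, S.small s →
    Tendsto (fun n => ({x ∈ s | blk x ≤ n}.ncard : ℝ) / g n) atTop (𝓝 0))

include hfin hcum in
/-- the excess of a set near `N` is `o(g)`. -/
theorem ex_tendsto {N X : Set α} (h1 : S.le X N) (h2 : S.le N X) :
    Tendsto (fun n => ex blk N X n / g n) atTop (𝓝 0) := by
  have e1 := hcum _ h1
  have e2 := hcum _ h2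
  have e3 := e1.sub e2
  rw [sub_zero] at e3
  refine e3.congr (fun n => ?_)
  have hX := cnt_union hfin (X := X ∩ N) (Y := X \ N)
    (disjoint_sdiff_right.mono_left inter_subset_right) n
  have hN := cnt_union hfin (X := N ∩ X) (Y := N \ X)
    (disjoint_sdiff_right.mono_left inter_subset_right) n
  rw [inter_union_sdiff] at hX hN
  rw [inter_comm] at hN
  unfold ex
  rw [hX, hN]
  unfold cnt
  push_cast
  rw [← sub_div]
  congr 1
  ring

include hfin hg hginf hsmall hcum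

theorem F2 {N X P : Set α} (h1 : S.le X N) (h2 : S.le N X) (hPX : P ⊆ X) (hP : ¬ S.small P) :
    ∃ S₀ ⊆ P, S.small S₀ ∧ IND blk g N (X \ S₀) := by
  obtain ⟨ρ, hρ0, hρa, hρt, hρ⟩ := exists_majorant (ex_tendsto hfin S hcum h1 h2)
  obtain ⟨S₀, hS₀P, hS₀, n₀, hn₀⟩ := select hfin hg hginf S hsmall hP (fun n => 2 * ρ n)
    (fun n => by have := hρ0 n; positivity)
    (fun m n hmn => by have := hρa hmn; simp only; linarith)
    (by simpa using hρt.const_mul 2)
  refine ⟨S₀, hS₀P, hS₀, n₀, fun n hn hpos => ?_⟩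
  obtain ⟨n', hn', h3⟩ := hn₀ n hn
  refine ⟨n', hn', ?_⟩
  have hgn := hg n
  have hgn' := hg n'
  have h4 := hρ n n le_rfl
  have h5 := hρ n n' hn'.le
  rw [abs_div, abs_of_pos hgn, div_le_iff₀ hgn] at h4
  rw [abs_div, abs_of_pos hgn', div_le_iff₀ hgn'] at h5
  rw [ex_diff hfin N (hS₀P.trans hPX), ex_diff hfin N (hS₀P.trans hPX)]
  have h6 : ({x ∈ S₀ | blk x = n'}.ncard : ℝ) ≤ cnt blk S₀ n' := by
    have : {x ∈ S₀ | blk x = n'}.ncard ≤ cnt blk S₀ n' :=
      ncard_le_ncard (fun x hx => ⟨hx.1, hx.2.le⟩) (fin_le hfin _ _)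
    exact_mod_cast this
  have h7 : (0 : ℝ) ≤ cnt blk S₀ n := Nat.cast_nonneg _
  have h8 : ex blk N X n ≤ ρ n * g n := (le_abs_self _).trans h4
  have h9 : ex blk N X n' ≤ ρ n * g n' := (le_abs_self _).trans h5
  have h10 : (ex blk N X n - cnt blk S₀ n) * g n' ≤ ρ n * g n * g n' :=
    mul_le_mul_of_nonneg_right (by linarith) hgn'.le
  have h11 : ρ n * g n' * g n ≤ -(ex blk N X n' - cnt blk S₀ n') * g n :=
    mul_le_mul_of_nonneg_right (by linarith) hgn.le
  linarith

theorem F3 {N X Q : Set α} (h1 : S.le X N) (h2 : S.le N X) (hQX : Disjoint X Q)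
    (hQ : ¬ S.small Q) :
    ∃ S₀ ⊆ Q, S.small S₀ ∧ ¬ IND blk g N (X ∪ S₀) := by
  obtain ⟨ρ, hρ0, hρa, hρt, hρ⟩ := exists_majorant (ex_tendsto hfin S hcum h1 h2)
  obtain ⟨S₀, hS₀Q, hS₀, n₀, hn₀⟩ := select hfin hg hginf S hsmall hQ
    (fun n => 2 * ρ n + 1 / ((n : ℝ) + 1))
    (fun n => by have := hρ0 n; positivity)
    (fun m n hmn => by
      have h3 := hρa hmn
      have h4 : 1 / ((n : ℝ) + 1) ≤ 1 / ((m : ℝ) + 1) := by
        apply one_div_le_one_div_of_le (by positivity)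
        have : (m : ℝ) ≤ n := by exact_mod_cast hmn
        linarith
      simp only; linarith)
    (by simpa using (hρt.const_mul 2).add tendsto_one_div_add_atTop_nhds_zero_nat)
  refine ⟨S₀, hS₀Q, hS₀, ?_⟩
  rintro ⟨m, hm⟩
  have hdis : Disjoint X S₀ := hQX.mono_right hS₀Q
  obtain ⟨n', hn', h3⟩ := hn₀ (max m n₀) (le_max_right _ _)
  set n := max m n₀ with hn
  have hgn' := hg n'
  have h5 := hρ n n' hn'.le
  rw [abs_div, abs_of_pos hgn', div_le_iff₀ hgn'] at h5
  have h6 : ({x ∈ S₀ | blk x = n'}.ncard : ℝ) ≤ cnt blk S₀ n' := by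
    have : {x ∈ S₀ | blk x = n'}.ncard ≤ cnt blk S₀ n' :=
      ncard_le_ncard (fun x hx => ⟨hx.1, hx.2.le⟩) (fin_le hfin _ _)
    exact_mod_cast this
  have h7 : 0 < (1 / ((n : ℝ) + 1)) * g n' := by positivity
  have h8 : ρ n * g n' < ex blk N (X ∪ S₀) n' := by
    rw [ex_union hfin N hdis]
    have := neg_abs_le (ex blk N X n')
    nlinarith
  have h9 : 0 < ex blk N (X ∪ S₀) n' := lt_of_le_of_lt (mul_nonneg (hρ0 n) hgn'.le) h8
  obtain ⟨k, hk, h10⟩ := hm n' (by have := le_max_left m n₀; omega) h9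
  have hgk := hg k
  have h11 := hρ n k (by omega)
  rw [abs_div, abs_of_pos hgk, div_le_iff₀ hgk] at h11
  have h12 : - ex blk N (X ∪ S₀) k ≤ ρ n * g k := by
    rw [ex_union hfin N hdis]
    have := neg_abs_le (ex blk N X k)
    have h13 : (0 : ℝ) ≤ cnt blk S₀ k := Nat.cast_nonneg _
    linarith
  have h14 : - ex blk N (X ∪ S₀) k * g n' ≤ ρ n * g k * g n' :=
    mul_le_mul_of_nonneg_right h12 hgn'.le
  have h15 : ρ n * g n' * g k < ex blk N (X ∪ S₀) n' * g k :=
    mul_lt_mul_of_pos_right h8 hgk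
  linarith

/-- Block [L]: existence of local bases in every class. -/
theorem exists_localBases (N : Set α) (hNc : ¬ S.small Nᶜ) :
    LocalBases S N (LB S blk g N) where
  near B hB := hB.1
  swap B hB a ha b hb := by
    obtain ⟨⟨h1, h2⟩, h3, h4⟩ := hB
    refine ⟨⟨?_, ?_⟩, IND_swap hfin ha hb h3, ?_⟩
    · refine S.mono (t := (B \ N) ∪ {b}) ?_ (S.union h1 (S.singleton b))
      rintro x ⟨hx1 | hx1, hx2⟩
      · exact Or.inr hx1
      · exact Or.inl ⟨hx1.1, hx2⟩
    · refine S.mono (t := (N \ B) ∪ {a}) ?_ (S.union h2 (S.singleton a))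
      rintro x ⟨hx1, hx2⟩
      by_cases hxa : x = a
      · exact Or.inr hxa
      · refine Or.inl ⟨hx1, fun hxB => hx2 (Or.inr ⟨hxB, hxa⟩)⟩
    · intro e he hI
      have hab : a ≠ b := fun h => hb (h ▸ ha)
      by_cases hea : e = a
      · subst hea
        apply h4 b hb
        have : insert e (insert b (B \ {e})) = insert b B := by
          rw [Set.insert_comm, insert_sdiff_singleton, insert_eq_of_mem ha]
        rwa [this] at hI
      · have heB : e ∉ B := fun h => he (Or.inr ⟨h, hea⟩)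
        have heb : e ≠ b := fun h => he (Or.inl h)
        apply h4 e heB
        -- `insert e B` is a swap of `insert e (insert b (B \ {a}))`
        have h5 := IND_swap hfin (blk := blk) (g := g) (N := N)
          (X := insert e (insert b (B \ {a}))) (a := b) (b := a)
          (by simp) (by simp [hab, Ne.symm hea]) hI
        have : insert a (insert e (insert b (B \ {a})) \ {b}) = insert e B := by
          ext x
          simp only [mem_insert_iff, Set.mem_sdiff, mem_singleton_iff]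
          by_cases hxa : x = a
          · subst hxa; simp [ha]
          · by_cases hxb : x = b
            · subst hxb; simp [hxa, hb, Ne.symm heb]
            · simp [hxa, hxb]
        rwa [this] at h5
  anti B hB B' hB' h := by
    by_contra hne
    obtain ⟨e, he, heB⟩ := exists_of_ssubset (ssubset_iff_subset_ne.2 ⟨h, hne⟩)
    exact hB.2.2 e heB (IND_anti hfin hg (insert_subset he h) hB'.2.1)
  mid I X hIX hIN hNX hI := by
    -- Step 1: `A` with `I ⊆ A ⊆ X`, near `N`, IND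
    have step1 : ∃ A, I ⊆ A ∧ A ⊆ X ∧ S.le A N ∧ S.le N A ∧ IND blk g N A := by
      by_cases hNI : S.le N I
      · obtain ⟨B, hB, hIB⟩ := hI hNI
        exact ⟨I, Subset.rfl, hIX, hIN, hNI, IND_anti hfin hg hIB hB.2.1⟩
      · set Y := (N ∩ X) ∪ I with hY
        have hYN : S.le Y N := S.mono (t := I \ N) (by
          rintro x ⟨hx1 | hx1, hx2⟩
          · exact absurd hx1.1 hx2
          · exact ⟨hx1, hx2⟩) hIN
        have hNY : S.le N Y := S.mono (t := N \ X) (by
          rintro x ⟨hx1, hx2⟩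
          exact ⟨hx1, fun hx => hx2 (Or.inl ⟨hx1, hx⟩)⟩) hNX
        have hP : ¬ S.small (Y \ I) := by
          intro hsm
          apply hNI
          refine S.mono (t := (Y \ I) ∪ (N \ X)) ?_ (S.union hsm hNX)
          rintro x ⟨hx1, hx2⟩
          by_cases hxX : x ∈ X
          · exact Or.inl ⟨Or.inl ⟨hx1, hxX⟩, hx2⟩
          · exact Or.inr ⟨hx1, hxX⟩
        obtain ⟨S₀, hS₀, hS₀s, hIND⟩ := F2 hfin hg hginf S hsmall hcum hYN hNY
          sdiff_subset hP
        refine ⟨Y \ S₀, ?_, ?_, ?_, ?_, hIND⟩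
        · intro x hx
          exact ⟨Or.inr hx, fun h => (hS₀ h).2 hx⟩
        · rintro x ⟨hx1 | hx1, _⟩
          · exact hx1.2
          · exact hIX hx1
        · exact S.mono (t := Y \ N) (fun x hx => ⟨hx.1.1, hx.2⟩) hYN
        · refine S.mono (t := (N \ Y) ∪ S₀) ?_ (S.union hNY hS₀s)
          rintro x ⟨hx1, hx2⟩
          by_cases hxY : x ∈ Y
          · exact Or.inr (by by_contra h; exact hx2 ⟨hxY, h⟩)
          · exact Or.inl ⟨hx1, hxY⟩
    obtain ⟨A, hIA, hAX, hAN, hNA, hAind⟩ := step1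
    -- near-ness of enlargements by small sets
    have hbig : ∀ Z S₁ : Set α, S.le Z N → S.le N Z → S.small S₁ →
        S.le (Z ∪ S₁) N ∧ S.le N (Z ∪ S₁) := by
      intro Z S₁ h1 h2 h3
      refine ⟨S.mono (t := (Z \ N) ∪ S₁) ?_ (S.union h1 h3),
        S.mono (t := N \ Z) (fun x hx => ⟨hx.1, fun h => hx.2 (Or.inl h)⟩) h2⟩
      rintro x ⟨hx1 | hx1, hx2⟩
      · exact Or.inl ⟨hx1, hx2⟩
      · exact Or.inr hx1
    -- F1 gives members of LB
    have useF1 : ∀ A Z : Set α, A ⊆ Z → S.le A N → S.le N A → S.le Z N →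
        IND blk g N A → ¬ IND blk g N Z → ∃ B ∈ LB S blk g N, A ⊆ B ∧ B ⊆ Z := by
      intro A Z hAZ h1 h2 h3 h4 h5
      obtain ⟨J, hJ1, hJ2, hJ3, hJ4⟩ := F1 hfin hg hAZ (ex_tendsto hfin S hcum h1 h2) h4 h5
      refine ⟨J, ⟨⟨S.mono (t := Z \ N) (fun x hx => ⟨hJ2 hx.1, hx.2⟩) h3,
        S.mono (t := N \ A) (fun x hx => ⟨hx.1, fun h => hx.2 (hJ1 h)⟩) h2⟩, hJ3, hJ4⟩,
        hJ1, hJ2⟩
    by_cases hXN : S.le X N
    · by_cases hXI : IND blk g N X
      · right
        refine ⟨hXN, ?_⟩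
        have hQ : ¬ S.small Xᶜ := by
          intro hsm
          apply hNc
          refine S.mono (t := Xᶜ ∪ (X \ N)) ?_ (S.union hsm hXN)
          intro x hx
          by_cases hxX : x ∈ X
          · exact Or.inr ⟨hxX, hx⟩
          · exact Or.inl hxX
        obtain ⟨S₁, hS₁, hS₁s, hnot⟩ := F3 hfin hg hginf S hsmall hcum hXN hNX
          disjoint_compl_right hQ
        obtain ⟨h1, h2⟩ := hbig X S₁ hXN hNX hS₁s
        obtain ⟨B, hB, hXB, _⟩ := useF1 X (X ∪ S₁) subset_union_left hXN hNX h1 hXI hnot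
        exact ⟨B, hB, hXB⟩
      · left
        obtain ⟨B, hB, h1, h2⟩ := useF1 A X hAX hAN hNA hXN hAind hXI
        exact ⟨B, hB, hIA.trans h1, h2⟩
    · left
      have hQ : ¬ S.small (X \ A) := by
        intro hsm
        apply hXN
        refine S.mono (t := (X \ A) ∪ (A \ N)) ?_ (S.union hsm hAN)
        rintro x ⟨hx1, hx2⟩
        by_cases hxA : x ∈ A
        · exact Or.inr ⟨hxA, hx2⟩
        · exact Or.inl ⟨hx1, hxA⟩
      obtain ⟨S₁, hS₁, hS₁s, hnot⟩ := F3 hfin hg hginf S hsmall hcum hAN hNA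
        disjoint_sdiff_right hQ
      obtain ⟨h1, h2⟩ := hbig A S₁ hAN hNA hS₁s
      obtain ⟨B, hB, hAB, hBX⟩ := useF1 A (A ∪ S₁) subset_union_left hAN hNA h1 hAind hnot
      exact ⟨B, hB, hIA.trans hAB, hBX.trans (union_subset hAX (hS₁.trans sdiff_subset))⟩

end F23

end Crest.Agent.R053.Local
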