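import Crest.Agent.R053.Ext

/-!
# R53 [G] transfinite recursion
-/

set_option autoImplicit false

namespace Crest.Agent.R053.Rec

open Set Crest.Agent.R053 Crest.Agent.R053.Ext Cardinal

variable {C : Type}

/-- the condition attached to a quadruple -/
def OkP (S : SIdeal C) (F : Set (Nd C)) (p : Set C × Set C × Set C × Set C) : Prop :=
  Ok S F p.1 p.2.1 p.2.2.1 p.2.2.2 ∨ Ok S F p.2.2.1ᶜ p.2.2.2ᶜ p.1ᶜ p.2.1ᶜ

theorem Ok.mono {S : SIdeal C} {F F' : Set (Nd C)} (h : F ⊆ F') {i₁ i₂ x₁ x₂ : Set C}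
    (hok : Ok S F i₁ i₂ x₁ x₂) : Ok S F' i₁ i₂ x₁ x₂ := by
  obtain ⟨N, hN, h'⟩ := hok
  exact ⟨N, h hN, h'⟩

theorem OkP.mono {S : SIdeal C} {F F' : Set (Nd C)} (h : F ⊆ F')
    {p : Set C × Set C × Set C × Set C} (hok : OkP S F p) : OkP S F' p := by
  rcases hok with h1 | h1
  · exact Or.inl (Ok.mono h h1)
  · exact Or.inr (Ok.mono h h1)

/-- `Good` is a pairwise condition. -/
theorem good_of_pairs {S : SIdeal C} {D : Ultrafilter C} {F : Set (Nd C)}
    (h : ∀ N ∈ F, ∀ N' ∈ F, ∃ F', N ∈ F' ∧ N' ∈ F' ∧ Good S D F') : Good S D F := by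
  constructor
  · intro N hN
    obtain ⟨F', h1, _, h2⟩ := h N hN N hN
    exact h2.ha N h1
  · intro N hN
    obtain ⟨F', h1, _, h2⟩ := h N hN N hN
    exact h2.hb N h1
  · intro N hN
    obtain ⟨F', h1, _, h2⟩ := h N hN N hN
    exact h2.hqr N h1
  · intro N hN N' hN'
    obtain ⟨F', h1, h1', h2⟩ := h N hN N' hN'
    exact h2.anti N h1 N' h1'
  · intro N hN N' hN'
    obtain ⟨F', h1, h1', h2⟩ := h N hN N' hN'
    exact h2.rank N h1 N' h1'

section rec

variable (S : SIdeal C) (D : Ultrafilter C) {T : Type} [LinearOrder T] [WellFoundedLT T]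
  (e : T → Set C × Set C × Set C × Set C)

/-- family built before stage `t` from a function on the initial segment -/
def Fam {t : T} (g : ∀ u, u < t → Option (Nd C)) : Set (Nd C) :=
  {N | ∃ u, ∃ h : u < t, g u h = some N}

open Classical in
/-- one step -/
noncomputable def step (t : T) (g : ∀ u, u < t → Option (Nd C)) : Option (Nd C) :=
  if h : ¬ OkP S (Fam g) (e t) ∧ ∃ N, Good S D (insert N (Fam g)) ∧ OkP S {N} (e t)
  then some h.2.choose else none

/-- the recursively built sequence -/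
noncomputable def seq (t : T) : Option (Nd C) :=
  WellFounded.fix (wellFounded_lt (α := T)) (fun t g => step S D e t g) t

/-- family before stage `t` -/
def Flt (t : T) : Set (Nd C) := {N | ∃ u, u < t ∧ seq S D e u = some N}

/-- whole family -/
def Fall : Set (Nd C) := {N | ∃ u : T, seq S D e u = some N}

theorem seq_eq (t : T) : seq S D e t = step S D e t (fun u _ => seq S D e u) := by
  unfold seq
  exact WellFounded.fix_eq _ _ _

theorem fam_eq (t : T) : Fam (t := t) (fun u _ => seq S D e u) = Flt S D e t := by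
  ext N
  simp only [Fam, Flt, mem_ofPred_eq, exists_prop]

omit [WellFoundedLT T] in
theorem step_cases (t : T) (g : ∀ u, u < t → Option (Nd C)) :
    (step S D e t g = none ∧ ¬ (¬ OkP S (Fam g) (e t) ∧
      ∃ N, Good S D (insert N (Fam g)) ∧ OkP S {N} (e t))) ∨
    ∃ N, step S D e t g = some N ∧ Good S D (insert N (Fam g)) ∧ OkP S {N} (e t) := by
  by_cases h : ¬ OkP S (Fam g) (e t) ∧ ∃ N, Good S D (insert N (Fam g)) ∧ OkP S {N} (e t)
  · right
    refine ⟨h.2.choose, ?_, h.2.choose_spec⟩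
    unfold step
    rw [dif_pos h]
  · left
    refine ⟨?_, h⟩
    unfold step
    rw [dif_neg h]

theorem seq_cases (t : T) :
    (seq S D e t = none ∧ ¬ (¬ OkP S (Flt S D e t) (e t) ∧
      ∃ N, Good S D (insert N (Flt S D e t)) ∧ OkP S {N} (e t))) ∨
    ∃ N, seq S D e t = some N ∧ Good S D (insert N (Flt S D e t)) ∧ OkP S {N} (e t) := by
  have := step_cases S D e t (fun u _ => seq S D e u)
  rw [← seq_eq, fam_eq] at this
  exact this

theorem good_Flt (t : T) : Good S D (Flt S D e t) := by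
  induction t using WellFoundedLT.induction with
  | ind t ih =>
    have hle : ∀ u < t, ∃ F', Good S D F' ∧ Flt S D e u ⊆ F' ∧ ∀ N, seq S D e u = some N → N ∈ F' := by
      intro u hu
      rcases seq_cases S D e u with ⟨h1, _⟩ | ⟨N, h1, h2, _⟩
      · refine ⟨Flt S D e u, ih u hu, Subset.rfl, ?_⟩
        intro N hN
        rw [h1] at hN
        exact absurd hN (by simp)
      · refine ⟨_, h2, subset_insert _ _, ?_⟩
        intro N' hN'
        rw [h1] at hN'
        simp only [Option.some.injEq] at hN'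
        exact hN' ▸ mem_insert _ _
    apply good_of_pairs
    rintro N ⟨u, hu, hN⟩ N' ⟨u', hu', hN'⟩
    rcases lt_trichotomy u u' with h | h | h
    · obtain ⟨F', h1, h2, h3⟩ := hle u' hu'
      exact ⟨F', h2 ⟨u, h, hN⟩, h3 _ hN', h1⟩
    · subst h
      obtain ⟨F', h1, h2, h3⟩ := hle u hu
      exact ⟨F', h3 _ hN, h3 _ hN', h1⟩
    · obtain ⟨F', h1, h2, h3⟩ := hle u hu
      exact ⟨F', h3 _ hN, h2 ⟨u', h, hN'⟩, h1⟩

theorem good_Fall [NoMaxOrder T] : Good S D (Fall S D e) := by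
  apply good_of_pairs
  rintro N ⟨u, hN⟩ N' ⟨u', hN'⟩
  obtain ⟨v, hv⟩ := exists_gt (max u u')
  exact ⟨Flt S D e v, ⟨u, (le_max_left _ _).trans_lt hv, hN⟩,
    ⟨u', (le_max_right _ _).trans_lt hv, hN'⟩, good_Flt S D e v⟩

theorem okP_Fall (hD : ∀ A, S.small A → A ∉ D) (t : T)
    (hsp : SplitHyp S (Flt S D e t)) (h₁ : (e t).1 ⊆ (e t).2.2.1)
    (h₂ : (e t).2.1 ⊆ (e t).2.2.2) : OkP S (Fall S D e) (e t) := by
  have hsub : Flt S D e t ⊆ Fall S D e := by
    rintro N ⟨u, _, hN⟩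
    exact ⟨u, hN⟩
  rcases seq_cases S D e t with ⟨h1, h2⟩ | ⟨N, h1, h2, h3⟩
  · by_cases hok : OkP S (Flt S D e t) (e t)
    · exact hok.mono hsub
    · exfalso
      apply h2
      refine ⟨hok, ?_⟩
      have hbdd : ∃ κ : Ordinal.{0}, ∀ N ∈ Flt S D e t, N.r ≤ κ := by
        let φ : T → Ordinal.{0} := fun u => match seq S D e u with
          | none => 0
          | some N => N.r
        obtain ⟨κ, hκ⟩ := Ordinal.bddAbove_of_small (s := Set.range φ)
        refine ⟨κ, ?_⟩
        rintro N ⟨u, _, hN⟩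
        have := hκ (mem_range_self u)
        simpa [φ, hN] using this
      obtain ⟨N, hN, h⟩ := extension S D hD (good_Flt S D e t) hsp hbdd h₁ h₂
        (fun h => hok (Or.inl h)) (fun h => hok (Or.inr h))
      exact ⟨N, hN, h⟩
  · refine h3.mono ?_
    rintro N' rfl
    exact ⟨t, h1⟩

end rec

theorem mk_quad_le [Countable C] : #(Set C × Set C × Set C × Set C) ≤ 𝔠 := by
  have h1 : #(Set C) ≤ 𝔠 := by
    rw [Cardinal.mk_set, ← Cardinal.two_power_aleph0]
    exact Cardinal.power_le_power_left two_ne_zero (Cardinal.mk_le_aleph0)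
  have h2 : (𝔠 : Cardinal.{0}) * 𝔠 = 𝔠 := Cardinal.mul_eq_self Cardinal.aleph0_le_continuum
  simp only [Cardinal.mk_prod, Cardinal.lift_id]
  calc #(Set C) * (#(Set C) * (#(Set C) * #(Set C)))
      ≤ 𝔠 * (𝔠 * (𝔠 * 𝔠)) := mul_le_mul' h1 (mul_le_mul' h1 (mul_le_mul' h1 h1))
    _ = 𝔠 := by rw [h2, h2, h2]

theorem splitHyp_Flt (S : SIdeal C) (D : Ultrafilter C) {T : Type} [LinearOrder T]
    [WellFoundedLT T] (hT : ∀ t : T, #(Iio t) < 𝔠)
    (e : T → Set C × Set C × Set C × Set C)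
    (H : (ℕ → Bool) → Set C) (hH : ∀ P, ¬ S.small P → {z | ¬ Splits S (H z) P}.Finite) (t : T) :
    SplitHyp S (Flt S D e t) := by
  intro f g
  have hfin : ∀ P, {z | ¬ Sp S (H z) P}.Finite := by
    intro P
    by_cases hP : S.small P
    · refine Set.Finite.subset Set.finite_empty ?_
      intro z hz
      exact hz (fun h => absurd hP h)
    · refine (hH P hP).subset ?_
      intro z hz hc
      exact hz (fun _ => hc)
  let bad : T → Set (ℕ → Bool) := fun u => match seq S D e u with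
    | none => ∅
    | some N => {z | ∃ P ∈ f N, ¬ Sp S (H z) P}
  have hbad : ∀ u, (bad u).Countable := by
    intro u
    simp only [bad]
    cases seq S D e u with
    | none => exact Set.countable_empty
    | some N =>
      have : {z | ∃ P ∈ f N, ¬ Sp S (H z) P} = ⋃ P ∈ f N, {z | ¬ Sp S (H z) P} := by
        ext z; simp
      show {z | ∃ P ∈ f N, ¬ Sp S (H z) P}.Countable
      rw [this]
      exact (Set.Finite.biUnion (List.finite_toSet (f N)) (fun P _ => hfin P)).countable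
  have hg : {z | ∃ P ∈ g, ¬ Sp S (H z) P}.Countable := by
    have : {z | ∃ P ∈ g, ¬ Sp S (H z) P} = ⋃ P ∈ g, {z | ¬ Sp S (H z) P} := by
      ext z; simp
    rw [this]
    exact (Set.Finite.biUnion (List.finite_toSet g) (fun P _ => hfin P)).countable
  have hcard : #(↥((⋃ u : Iio t, bad u) ∪ {z | ∃ P ∈ g, ¬ Sp S (H z) P})) < 𝔠 := by
    refine (Cardinal.mk_union_le _ _).trans_lt (Cardinal.add_lt_of_lt Cardinal.aleph0_le_continuum
      ?_ ?_)
    · refine (Cardinal.mk_iUnion_le _).trans_lt ?_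
      refine Cardinal.mul_lt_of_lt Cardinal.aleph0_le_continuum (hT t) ?_
      refine lt_of_le_of_lt (b := ℵ₀) ?_ Cardinal.aleph0_lt_continuum
      apply ciSup_le'
      intro u
      exact (hbad u).le_aleph0
    · exact (hg.le_aleph0).trans_lt Cardinal.aleph0_lt_continuum
  have hex : ∃ z : ℕ → Bool, z ∉ ((⋃ u : Iio t, bad u) ∪ {z | ∃ P ∈ g, ¬ Sp S (H z) P}) := by
    by_contra hc
    push Not at hc
    have huniv : ((⋃ u : Iio t, bad u) ∪ {z | ∃ P ∈ g, ¬ Sp S (H z) P}) = Set.univ :=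
      Set.eq_univ_of_forall hc
    rw [huniv, Cardinal.mk_univ] at hcard
    have : #(ℕ → Bool) = 𝔠 := by simp
    rw [this] at hcard
    exact lt_irrefl _ hcard
  obtain ⟨z, hz⟩ := hex
  simp only [mem_union, mem_iUnion, not_or, not_exists] at hz
  refine ⟨H z, ?_, ?_⟩
  · rintro N ⟨u, hu, hN⟩ P hP
    by_contra hc
    apply hz.1 ⟨u, hu⟩
    simp only [bad, hN]
    exact ⟨P, hP, hc⟩
  · intro P hP
    by_contra hc
    exact hz.2 ⟨P, hP, hc⟩

theorem exists_final [Countable C] (S : SIdeal C) (D : Ultrafilter C)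
    (hD : ∀ A, S.small A → A ∉ D) (H : (ℕ → Bool) → Set C)
    (hH : ∀ P, ¬ S.small P → {z | ¬ Splits S (H z) P}.Finite) :
    ∃ F, Final S D F := by
  classical
  let T : Type := (𝔠).ord.ToType
  have hT : #T = 𝔠 := by simp [T]
  have hlim : NoMaxOrder T := Cardinal.noMaxOrder Cardinal.aleph0_le_continuum
  obtain ⟨e, he⟩ : ∃ e : T → Set C × Set C × Set C × Set C, Function.Surjective e := by
    have h1 : #(Set C × Set C × Set C × Set C) ≤ #T := by rw [hT]; exact mk_quad_le
    obtain ⟨φ⟩ := Cardinal.le_def _ _ |>.1 h1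
    exact ⟨Function.invFun φ, Function.invFun_surjective φ.injective⟩
  have hIio : ∀ t : T, #(Iio t) < 𝔠 := by
    intro t
    have := Cardinal.mk_Iio_lt t (by simp [T])
    rwa [hT] at this
  have hsp : ∀ t, SplitHyp S (Flt S D e t) := splitHyp_Flt S D hIio e H hH
  refine ⟨Fall S D e, { toGood := good_Fall S D e, all := ?_ }⟩
  intro i₁ i₂ x₁ x₂ h₁ h₂
  obtain ⟨t, ht⟩ := he (i₁, i₂, x₁, x₂)
  have := okP_Fall S D e hD t (hsp t) (by rw [ht]; exact h₁) (by rw [ht]; exact h₂)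
  rw [ht] at this
  exact this

end Crest.Agent.R053.Rec
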