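import Crest.Agent.R053.Basic

/-!
# R53 (S0074), block [S]: the splitting lemma

The ground set `CC` is a disjoint union of blocks, the `n`-th one consisting of all functions
`2^n → 2`.  A set is small if its density in the blocks tends to `0`.  The sets `H z`
(`z : ℕ → Bool`) are mutually independent halves, so that every non-small set is split by all
but finitely many of them.
-/

set_option autoImplicit false

namespace Crest.Agent.R053.Split

open Set Filter Topology

/-- number of elements of `A` in block `n` -/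
noncomputable def cnt (A : Set CC) (n : ℕ) : ℕ := {f | (⟨n, f⟩ : CC) ∈ A}.ncard

theorem cnt_mono {A B : Set CC} (h : A ⊆ B) (n : ℕ) : cnt A n ≤ cnt B n :=
  Set.ncard_le_ncard (fun _ hf => h hf) (Set.toFinite _)

theorem cnt_union_le (A B : Set CC) (n : ℕ) : cnt (A ∪ B) n ≤ cnt A n + cnt B n :=
  Set.ncard_union_le _ _

theorem cnt_univ (n : ℕ) : cnt Set.univ n = 2 ^ 2 ^ n := by
  unfold cnt
  simp [Set.ncard_univ, Nat.card_eq_fintype_card]

theorem gpos (n : ℕ) : (0 : ℝ) < 2 ^ 2 ^ n := by positivity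

/-- The ideal of sets whose block densities tend to `0`. -/
def ccIdeal : SIdeal CC where
  small A := Tendsto (fun n => ({f | (⟨n, f⟩ : CC) ∈ A}.ncard : ℝ) / 2 ^ 2 ^ n) atTop (𝓝 0)
  mono := by
    intro s t h ht
    refine squeeze_zero (fun n => by positivity) (fun n => ?_) ht
    have h2 : ({f | (⟨n, f⟩ : CC) ∈ s}.ncard : ℝ) ≤ ({f | (⟨n, f⟩ : CC) ∈ t}.ncard : ℝ) := by
      exact_mod_cast cnt_mono h n
    exact div_le_div_of_nonneg_right h2 (gpos n).le
  union := by
    intro s t hs ht
    have hst := hs.add ht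
    rw [add_zero] at hst
    refine squeeze_zero (fun n => by positivity) (fun n => ?_) hst
    rw [← add_div]
    have h2 : ({f | (⟨n, f⟩ : CC) ∈ s ∪ t}.ncard : ℝ) ≤
        ({f | (⟨n, f⟩ : CC) ∈ s}.ncard : ℝ) + ({f | (⟨n, f⟩ : CC) ∈ t}.ncard : ℝ) := by
      exact_mod_cast cnt_union_le s t n
    exact div_le_div_of_nonneg_right h2 (gpos n).le
  singleton := by
    rintro ⟨m, g⟩
    refine (tendsto_const_nhds (x := (0 : ℝ))).congr' ?_
    filter_upwards [eventually_gt_atTop m] with n hn
    have : {f | (⟨n, f⟩ : CC) ∈ ({⟨m, g⟩} : Set CC)} = ∅ := by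
      ext f
      simp only [mem_singleton_iff, mem_ofPred_eq, mem_empty_iff_false, iff_false]
      intro h
      have := congrArg Sigma.fst h
      simp at this
      omega
    rw [this]
    simp
  empty := by simp

theorem small_iff (A : Set CC) :
    ccIdeal.small A ↔ Tendsto (fun n => (cnt A n : ℝ) / 2 ^ 2 ^ n) atTop (𝓝 0) := Iff.rfl

/-- the half attached to a branch `z` -/
def H (z : ℕ → Bool) : Set CC := {x | x.2 (fun i => z i) = true}

/-- counting: prescribing the values on a finset `W` -/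
theorem card_prescribed (n : ℕ) (W : Finset (Fin n → Bool)) (t : (Fin n → Bool) → Bool) :
    2 ^ W.card * {f : (Fin n → Bool) → Bool | ∀ w ∈ W, f w = t w}.ncard = 2 ^ 2 ^ n := by
  classical
  have h1 : {f : (Fin n → Bool) → Bool | ∀ w ∈ W, f w = t w}
      = ((Fintype.piFinset (fun w => if w ∈ W then {t w} else Finset.univ) :
          Finset ((Fin n → Bool) → Bool)) : Set ((Fin n → Bool) → Bool)) := by
    ext f
    simp only [mem_ofPred_eq, Finset.mem_coe, Fintype.mem_piFinset]
    constructor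
    · intro h w
      by_cases hw : w ∈ W
      · simp [hw, h w hw]
      · simp [hw]
    · intro h w hw
      have := h w
      simpa [hw] using this
  rw [h1, Set.ncard_coe_finset, Fintype.card_piFinset]
  have h2 : (2 : ℕ) ^ W.card = ∏ w : (Fin n → Bool), (if w ∈ W then 2 else 1) := by
    rw [Finset.prod_ite]
    simp
  rw [h2, ← Finset.prod_mul_distrib]
  have h3 : ∀ w : (Fin n → Bool), (if w ∈ W then 2 else 1) *
      (if w ∈ W then ({t w} : Finset Bool) else Finset.univ).card = 2 := by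
    intro w
    by_cases hw : w ∈ W <;> simp [hw]
  simp only [h3]
  simp

/-- eventually, the restrictions to `n` of the members of a finite set of branches are distinct -/
theorem eventually_injOn (Z : Finset (ℕ → Bool)) :
    ∀ᶠ n in atTop, Set.InjOn (fun (z : ℕ → Bool) (i : Fin n) => z i) (Z : Set (ℕ → Bool)) := by
  classical
  have key : ∀ p ∈ Z ×ˢ Z, ∀ᶠ n : ℕ in atTop,
      ((fun i : Fin n => p.1 i) = (fun i : Fin n => p.2 i) → p.1 = p.2) := by
    rintro ⟨z, w⟩ -
    by_cases h : z = w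
    · exact Eventually.of_forall (fun _ _ => h)
    · obtain ⟨k, hk⟩ := Function.ne_iff.1 h
      filter_upwards [eventually_gt_atTop k] with n hn heq
      exact absurd (congrFun heq ⟨k, hn⟩) hk
  have := (Filter.eventually_all_finset (Z ×ˢ Z)).2 key
  filter_upwards [this] with n hn z hz w hw h
  exact hn (z, w) (by simpa using ⟨hz, hw⟩) h

/-- A Boolean combination of `k` distinct halves has density `2^-k` in all late blocks. -/
theorem cnt_comb (Z : Finset (ℕ → Bool)) (s : (ℕ → Bool) → Bool) :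
    ∀ᶠ n in atTop,
      2 ^ Z.card * cnt {x : CC | ∀ z ∈ Z, x.2 (fun i => z i) = s z} n = 2 ^ 2 ^ n := by
  classical
  filter_upwards [eventually_injOn Z] with n hn
  let ρ : (ℕ → Bool) → (Fin n → Bool) := fun z i => z i
  let W : Finset (Fin n → Bool) := Z.image ρ
  have hW : W.card = Z.card := Finset.card_image_of_injOn hn
  let t : (Fin n → Bool) → Bool := fun w =>
    if h : ∃ z ∈ Z, ρ z = w then s h.choose else true
  have ht : ∀ z ∈ Z, t (ρ z) = s z := by
    intro z hz
    have h : ∃ z' ∈ Z, ρ z' = ρ z := ⟨z, hz, rfl⟩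
    have h2 : t (ρ z) = s h.choose := by
      simp only [t]
      rw [dif_pos h]
    rw [h2]
    congr 1
    exact hn h.choose_spec.1 hz h.choose_spec.2
  have hset : {f : (Fin n → Bool) → Bool | (⟨n, f⟩ : CC) ∈
      {x : CC | ∀ z ∈ Z, x.2 (fun i => z i) = s z}} = {f | ∀ w ∈ W, f w = t w} := by
    ext f
    simp only [mem_ofPred_eq, W, Finset.mem_image]
    constructor
    · rintro h w ⟨z, hz, rfl⟩
      rw [ht z hz]
      exact h z hz
    · intro h z hz
      have := h (ρ z) ⟨z, hz, rfl⟩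
      rw [ht z hz] at this
      exact this
  have := card_prescribed n W t
  rw [hW] at this
  unfold cnt
  rw [hset]
  exact this

/-- Finite unions of small sets are small. -/
theorem small_biUnion {ι : Type*} (Z : Finset ι) (A : ι → Set CC)
    (h : ∀ z ∈ Z, ccIdeal.small (A z)) : ccIdeal.small (⋃ z ∈ Z, A z) := by
  classical
  induction Z using Finset.induction_on with
  | empty => simpa using ccIdeal.empty
  | insert a Z _ ih =>
    rw [Finset.set_biUnion_insert]
    exact ccIdeal.union (h a (Finset.mem_insert_self _ _))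
      (ih fun z hz => h z (Finset.mem_insert_of_mem hz))

/-- A non-small set is split by all but finitely many of the halves `H z`. -/
theorem finite_not_splits {P : Set CC} (hP : ¬ ccIdeal.small P) :
    {z | ¬ Splits ccIdeal (H z) P}.Finite := by
  classical
  by_contra hinf
  have hinf : {z | ¬ Splits ccIdeal (H z) P}.Infinite := hinf
  -- positive upper density
  have hpos : ∃ ε > (0 : ℝ), ∃ᶠ n in atTop, ε ≤ (cnt P n : ℝ) / 2 ^ 2 ^ n := by
    by_contra hcon
    push Not at hcon
    apply hP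
    rw [small_iff, Metric.tendsto_nhds]
    intro ε hε
    have := hcon ε hε
    filter_upwards [this] with n hn
    rw [Real.dist_eq, sub_zero, abs_of_nonneg (by positivity)]
    exact hn
  obtain ⟨ε, hε, hfreq⟩ := hpos
  obtain ⟨k, hk⟩ := exists_pow_lt_of_lt_one (half_pos hε) (by norm_num : (1 / 2 : ℝ) < 1)
  obtain ⟨Z, hZsub, hZcard⟩ := hinf.exists_subset_card_eq k
  -- for each bad `z` choose the side
  have hside : ∀ z ∈ Z, ∃ b : Bool, ccIdeal.small (P \ {x : CC | x.2 (fun i => z i) = b}) := by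
    intro z hz
    have hz' := hZsub hz
    simp only [mem_ofPred_eq, Splits, not_and_or, not_not] at hz'
    rcases hz' with h | h
    · refine ⟨false, ccIdeal.mono ?_ h⟩
      rintro x ⟨hx, hx2⟩
      exact ⟨hx, by simpa [H] using hx2⟩
    · refine ⟨true, ccIdeal.mono ?_ h⟩
      rintro x ⟨hx, hx2⟩
      exact ⟨hx, by simpa [H] using hx2⟩
  choose! s hs using hside
  have hsmall := small_biUnion Z _ hs
  have hcov : P ⊆ (⋃ z ∈ Z, P \ {x : CC | x.2 (fun i => z i) = s z}) ∪
      {x : CC | ∀ z ∈ Z, x.2 (fun i => z i) = s z} := by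
    intro x hx
    by_cases h : ∀ z ∈ Z, x.2 (fun i => z i) = s z
    · exact Or.inr h
    · left
      push Not at h
      obtain ⟨z, hz, hne⟩ := h
      simp only [mem_iUnion]
      exact ⟨z, hz, hx, hne⟩
  have hev1 : ∀ᶠ n in atTop,
      (cnt (⋃ z ∈ Z, P \ {x : CC | x.2 (fun i => z i) = s z}) n : ℝ) / 2 ^ 2 ^ n < ε / 2 :=
    (tendsto_order.1 ((small_iff _).1 hsmall)).2 _ (half_pos hε)
  obtain ⟨n, hn0, hn1, hn2⟩ := (hfreq.and_eventually (hev1.and (cnt_comb Z s))).exists
  have hle : (cnt P n : ℝ) ≤ cnt (⋃ z ∈ Z, P \ {x : CC | x.2 (fun i => z i) = s z}) n +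
      cnt {x : CC | ∀ z ∈ Z, x.2 (fun i => z i) = s z} n := by
    exact_mod_cast (cnt_mono hcov n).trans (cnt_union_le _ _ n)
  have hcomb : (cnt {x : CC | ∀ z ∈ Z, x.2 (fun i => z i) = s z} n : ℝ) / 2 ^ 2 ^ n
      = (1 / 2) ^ k := by
    have h2 : ((2 : ℝ) ^ k * cnt {x : CC | ∀ z ∈ Z, x.2 (fun i => z i) = s z} n) = 2 ^ 2 ^ n := by
      rw [← hZcard]
      exact_mod_cast hn2
    rw [← h2, one_div, inv_pow]
    have h3 : (cnt {x : CC | ∀ z ∈ Z, x.2 (fun i => z i) = s z} n : ℝ) ≠ 0 := by
      intro h0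
      rw [h0, mul_zero] at h2
      exact (gpos n).ne h2
    field_simp
  have : (cnt P n : ℝ) / 2 ^ 2 ^ n < ε := by
    calc (cnt P n : ℝ) / 2 ^ 2 ^ n
        ≤ (cnt (⋃ z ∈ Z, P \ {x : CC | x.2 (fun i => z i) = s z}) n +
          cnt {x : CC | ∀ z ∈ Z, x.2 (fun i => z i) = s z} n) / 2 ^ 2 ^ n := by gcongr
      _ = (cnt (⋃ z ∈ Z, P \ {x : CC | x.2 (fun i => z i) = s z}) n : ℝ) / 2 ^ 2 ^ n
          + (1 / 2) ^ k := by rw [add_div, hcomb]
      _ < ε := by linarith
  linarith

/-- `univ` is not small. -/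
theorem not_small_univ : ¬ ccIdeal.small (Set.univ : Set CC) := by
  rw [small_iff]
  intro h
  have h1 : Tendsto (fun n : ℕ => (cnt Set.univ n : ℝ) / 2 ^ 2 ^ n) atTop (𝓝 1) := by
    refine tendsto_const_nhds.congr (fun n => ?_)
    rw [cnt_univ]
    push_cast
    rw [div_self (gpos n).ne']
  exact zero_ne_one (tendsto_nhds_unique h h1)

/-- an ultrafilter avoiding all small sets -/
theorem exists_ultrafilter : ∃ D : Ultrafilter CC, ∀ A, ccIdeal.small A → A ∉ D := by
  let F : Filter CC :=
    { sets := {A | ccIdeal.small Aᶜ}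
      univ_sets := by simpa using ccIdeal.empty
      sets_of_superset := by
        intro x y hx hxy
        exact ccIdeal.mono (compl_subset_compl.2 hxy) hx
      inter_sets := by
        intro x y hx hy
        show ccIdeal.small (x ∩ y)ᶜ
        rw [compl_inter]
        exact ccIdeal.union hx hy }
  have hF : F.NeBot := by
    rw [Filter.neBot_iff]
    intro h
    have : (∅ : Set CC) ∈ F := by rw [h]; trivial
    have h2 : ccIdeal.small (∅ : Set CC)ᶜ := this
    rw [compl_empty] at h2
    exact not_small_univ h2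
  refine ⟨Ultrafilter.of F, fun A hA hAD => ?_⟩
  have h1 : Aᶜ ∈ F := by
    show ccIdeal.small Aᶜᶜ
    rwa [compl_compl]
  have h2 : Aᶜ ∈ Ultrafilter.of F := Ultrafilter.of_le F h1
  exact (Ultrafilter.compl_mem_iff_notMem.1 h2) hAD

/-! ### the hypotheses of block [L] for `ccIdeal.sum` -/

/-- the block function on `CC ⊕ CC` -/
def blk : CC ⊕ CC → ℕ := Sum.elim (·.1) (·.1)

/-- the weights -/
noncomputable def g (n : ℕ) : ℝ := 2 ^ 2 ^ n

theorem g_pos (n : ℕ) : 0 < g n := gpos n

theorem g_tendsto : Tendsto g atTop atTop := by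
  have h1 : Tendsto (fun n : ℕ => (2 : ℝ) ^ n) atTop atTop :=
    tendsto_pow_atTop_atTop_of_one_lt (by norm_num)
  have h2 : Tendsto (fun n : ℕ => 2 ^ n) atTop atTop :=
    tendsto_pow_atTop_atTop_of_one_lt (by norm_num : 1 < 2)
  exact h1.comp h2

theorem block_eq (s : Set (CC ⊕ CC)) (n : ℕ) : {x ∈ s | blk x = n} =
    (fun f => Sum.inl ⟨n, f⟩) '' {f | (⟨n, f⟩ : CC) ∈ Sum.inl ⁻¹' s} ∪
    (fun f => Sum.inr ⟨n, f⟩) '' {f | (⟨n, f⟩ : CC) ∈ Sum.inr ⁻¹' s} := by
  ext x
  constructor
  · rintro ⟨hx, hb⟩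
    rcases x with ⟨m, f⟩ | ⟨m, f⟩
    · obtain rfl : m = n := hb
      exact Or.inl ⟨f, hx, rfl⟩
    · obtain rfl : m = n := hb
      exact Or.inr ⟨f, hx, rfl⟩
  · rintro (⟨f, hf, rfl⟩ | ⟨f, hf, rfl⟩)
    · exact ⟨hf, rfl⟩
    · exact ⟨hf, rfl⟩

/-- the blocks are finite -/
theorem block_finite (s : Set (CC ⊕ CC)) (n : ℕ) : {x ∈ s | blk x = n}.Finite := by
  rw [block_eq]
  exact (Set.toFinite _).union (Set.toFinite _)

theorem fiber_finite (n : ℕ) : {x : CC ⊕ CC | blk x = n}.Finite :=
  (block_finite Set.univ n).subset (fun _ hx => ⟨trivial, hx⟩)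

theorem fiber_le_finite (n : ℕ) : {x : CC ⊕ CC | blk x ≤ n}.Finite := by
  have : {x : CC ⊕ CC | blk x ≤ n} = ⋃ i ∈ Finset.range (n + 1), {x | blk x = i} := by
    ext x
    simp
  rw [this]
  exact Set.Finite.biUnion (Finset.finite_toSet _) (fun i _ => fiber_finite i)

theorem block_card (s : Set (CC ⊕ CC)) (n : ℕ) : {x ∈ s | blk x = n}.ncard =
    cnt (Sum.inl ⁻¹' s) n + cnt (Sum.inr ⁻¹' s) n := by
  rw [block_eq, Set.ncard_union_eq ?_ (Set.toFinite _) (Set.toFinite _),
    Set.ncard_image_of_injective, Set.ncard_image_of_injective]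
  · rfl
  · intro f f' h
    simpa using h
  · intro f f' h
    simpa using h
  · rw [Set.disjoint_left]
    rintro x ⟨f, _, rfl⟩ ⟨f', _, h⟩
    simp at h

/-- first hypothesis of [L] -/
theorem sum_small_iff (s : Set (CC ⊕ CC)) : ccIdeal.sum.small s ↔
    Tendsto (fun n => ({x ∈ s | blk x = n}.ncard : ℝ) / g n) atTop (𝓝 0) := by
  have heq : (fun n => ({x ∈ s | blk x = n}.ncard : ℝ) / g n) = fun n =>
      (cnt (Sum.inl ⁻¹' s) n : ℝ) / 2 ^ 2 ^ n + (cnt (Sum.inr ⁻¹' s) n : ℝ) / 2 ^ 2 ^ n := by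
    funext n
    rw [block_card]
    push_cast
    rw [add_div]
    rfl
  rw [heq]
  constructor
  · rintro ⟨h1, h2⟩
    have := ((small_iff _).1 h1).add ((small_iff _).1 h2)
    rwa [add_zero] at this
  · intro h
    refine ⟨(small_iff _).2 ?_, (small_iff _).2 ?_⟩
    · refine squeeze_zero (fun n => by positivity) (fun n => ?_) h
      have : (0 : ℝ) ≤ (cnt (Sum.inr ⁻¹' s) n : ℝ) / 2 ^ 2 ^ n := by positivity
      linarith
    · refine squeeze_zero (fun n => by positivity) (fun n => ?_) h
      have : (0 : ℝ) ≤ (cnt (Sum.inl ⁻¹' s) n : ℝ) / 2 ^ 2 ^ n := by positivity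
      linarith

/-- number of elements in the blocks before `n` -/
noncomputable def before (n : ℕ) : ℕ := {x : CC ⊕ CC | blk x < n}.ncard

theorem before_finite (n : ℕ) : {x : CC ⊕ CC | blk x < n}.Finite :=
  (fiber_le_finite n).subset (fun x hx => show blk x ≤ n from le_of_lt (show blk x < n from hx))

theorem fiber_card (n : ℕ) : {x : CC ⊕ CC | blk x = n}.ncard = 2 * 2 ^ 2 ^ n := by
  have h := block_card Set.univ n
  have h2 : {x ∈ (Set.univ : Set (CC ⊕ CC)) | blk x = n} = {x | blk x = n} := by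
    ext x; simp
  rw [h2] at h
  rw [h, preimage_univ, preimage_univ, cnt_univ]
  ring

theorem before_succ_le (n : ℕ) : before (n + 1) ≤ before n + 2 * 2 ^ 2 ^ n := by
  rw [← fiber_card]
  have : {x : CC ⊕ CC | blk x < n + 1} ⊆ {x | blk x < n} ∪ {x | blk x = n} := by
    intro x hx
    simp only [mem_ofPred_eq, mem_union] at hx ⊢
    omega
  exact (Set.ncard_le_ncard this ((before_finite n).union (fiber_finite n))).trans
    (Set.ncard_union_le _ _)

theorem before_le (n : ℕ) : (before n : ℝ) ≤ 2 * g n := by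
  induction n with
  | zero =>
    have : before 0 = 0 := by
      unfold before
      have : {x : CC ⊕ CC | blk x < 0} = ∅ := by ext x; simp
      rw [this, Set.ncard_empty]
    rw [this]
    have := g_pos 0
    push_cast
    linarith
  | succ n ih =>
    have h1 : (before (n + 1) : ℝ) ≤ before n + 2 * g n := by
      unfold g
      exact_mod_cast before_succ_le n
    have h2 : g (n + 1) = g n * g n := by
      unfold g
      rw [← pow_add]
      congr 1
      ring
    have h3 : 2 ≤ g n := by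
      unfold g
      calc (2 : ℝ) = 2 ^ 1 := by norm_num
        _ ≤ 2 ^ 2 ^ n := pow_le_pow_right₀ (by norm_num) (Nat.one_le_two_pow)
    rw [h2]
    nlinarith

theorem before_tendsto : Tendsto (fun n => (before n : ℝ) / g n) atTop (𝓝 0) := by
  rw [← tendsto_add_atTop_iff_nat 1]
  have h4 : Tendsto (fun n => 4 / g n) atTop (𝓝 0) := g_tendsto.const_div_atTop 4
  refine squeeze_zero (fun n => by have := g_pos (n + 1); positivity) (fun n => ?_) h4
  have h1 : (before (n + 1) : ℝ) ≤ before n + 2 * g n := by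
    unfold g
    exact_mod_cast before_succ_le n
  have h2 : g (n + 1) = g n * g n := by
    unfold g
    rw [← pow_add]
    congr 1
    ring
  have h3 := before_le n
  have hg := g_pos n
  rw [h2, div_le_div_iff₀ (by positivity) hg]
  nlinarith

/-- second hypothesis of [L] -/
theorem sum_small_le {s : Set (CC ⊕ CC)} (h : ccIdeal.sum.small s) :
    Tendsto (fun n => ({x ∈ s | blk x ≤ n}.ncard : ℝ) / g n) atTop (𝓝 0) := by
  have h1 := ((sum_small_iff s).1 h).add before_tendsto
  rw [add_zero] at h1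
  refine squeeze_zero (fun n => by have := g_pos n; positivity) (fun n => ?_) h1
  rw [← add_div]
  have hsub : {x ∈ s | blk x ≤ n} ⊆ {x ∈ s | blk x = n} ∪ {x | blk x < n} := by
    rintro x ⟨hx, hb⟩
    rcases hb.lt_or_eq with h | h
    · exact Or.inr h
    · exact Or.inl ⟨hx, h⟩
  have h2 : ({x ∈ s | blk x ≤ n}.ncard : ℝ) ≤ ({x ∈ s | blk x = n}.ncard : ℝ) + before n := by
    exact_mod_cast (Set.ncard_le_ncard hsub ((block_finite s n).union (before_finite n))).trans
      (Set.ncard_union_le _ _)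
  exact div_le_div_of_nonneg_right h2 (g_pos n).le

end Crest.Agent.R053.Split
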